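import Vale.Agent.P177.AR.Abs
import Vale.Agent.P177.PI.T3J
import Vale.Agent.P177.PI.ChoiceA
import Vale.Agent.P202.Mix.Tei1

/-!
# P177, block CUT: `C/J` has one dimension less

`C` perfect, `t` regular and in the Jacobson radical, `J` a perfect ideal such that a nonzero
element `γ` of `Λ` lies in `W(J)` modulo `(p - [t], p^M)`: then there are `y_1, .., y_r` (one less
than `t, u_1, .., u_r`) with `(t, u)^L ⊆ (y) + J`.
-/

set_option linter.all false

namespace Vale.Agent.P177.NatC

open Vale.Agent.P177.PI WittVector IsLocalRing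

universe u

section A

variable {p : ℕ} [hp : Fact p.Prime] {C : Type u} [CommRing C]

/-- the ideal `J : t`. -/
def colT (J : Ideal C) (t : C) : Ideal C where
  carrier := {c | t * c ∈ J}
  add_mem' := by
    intro a b ha hb
    show t * (a + b) ∈ J
    rw [mul_add]; exact add_mem ha hb
  zero_mem' := by
    show t * 0 ∈ J
    rw [mul_zero]; exact zero_mem _
  smul_mem' := by
    intro c a ha
    show t * (c * a) ∈ J
    rw [mul_left_comm]; exact Ideal.mul_mem_left _ _ ha

theorem mem_colT {J : Ideal C} {t c : C} : c ∈ colT J t ↔ t * c ∈ J := Iff.rfl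

theorem le_colT (J : Ideal C) (t : C) : J ≤ colT J t := fun c hc => Ideal.mul_mem_left _ _ hc

theorem isPerf_colT {J : Ideal C} (hJ : IsPerf p J) (t : C) : IsPerf p (colT J t) := by
  intro a ha b hb i hi c hc
  refine hJ _ ha _ hb i hi _ ?_
  rw [mul_pow, hc, mul_pow, mul_pow]
  have h : t ^ p = t ^ i * t ^ (p - i) := by rw [← pow_add, Nat.add_sub_cancel' hi]
  rw [h]
  ring

variable [CharP C p] [PerfectRing C p]

/-- `[t]` is regular modulo `p - [t]`. -/
theorem exists_of_te_mul {t : C} (ht : t ∈ nonZeroDivisors C) {a b : WittVector p C}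
    (h : teichmuller p t * a = ((p : WittVector p C) - teichmuller p t) * b) :
    ∃ c, a = ((p : WittVector p C) - teichmuller p t) * c := by
  have h1 : (p : Vale.Agent.P202.Mix.Bt p C t) * Vale.Agent.P202.Mix.toB p C t a = 0 := by
    rw [← map_natCast (Vale.Agent.P202.Mix.toB p C t), ← map_mul]
    refine Ideal.Quotient.eq_zero_iff_mem.2 (Ideal.mem_span_singleton'.2 ⟨a + b, ?_⟩)
    linear_combination -h
  have h2 := Vale.Agent.P202.Mix.p_mul_eq_zero p C t ht _ h1
  obtain ⟨c, hc⟩ := Ideal.mem_span_singleton'.1 (Ideal.Quotient.eq_zero_iff_mem.1 h2)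
  exact ⟨c, by rw [← hc, mul_comm]⟩

/-- **Lemma A.** `[t]^m x ∈ W(J) + (p - [t], p^M)`, `m < M`, gives `t^m (x_0 + t v) ∈ J`. -/
theorem exists_mem_of_te_pow {t : C} (ht : t ∈ nonZeroDivisors C) (m : ℕ) :
    ∀ (M : ℕ) (_ : m < M) {J : Ideal C} (_ : IsPerf p J) (x z y w : WittVector p C)
      (_ : z ∈ WI p J) (_ : z = teichmuller p t ^ m * x +
        ((p : WittVector p C) - teichmuller p t) * y + (p : WittVector p C) ^ M * w),
      ∃ v : C, t ^ m * (x.coeff 0 + t * v) ∈ J := by
  have hc : ∀ a b : WittVector p C, (a + b).coeff 0 = a.coeff 0 + b.coeff 0 := fun a b =>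
    map_add (WittVector.constantCoeff : WittVector p C →+* C) a b
  have hc' : ∀ a b : WittVector p C, (a * b).coeff 0 = a.coeff 0 * b.coeff 0 := fun a b =>
    map_mul (WittVector.constantCoeff : WittVector p C →+* C) a b
  have hp0 : ∀ (M : ℕ) (_ : 0 < M) (w : WittVector p C),
      ((p : WittVector p C) ^ M * w).coeff 0 = 0 := by
    intro M hM w
    obtain ⟨n, rfl⟩ : ∃ n, M = n + 1 := ⟨M - 1, by omega⟩
    rw [pow_succ', mul_assoc]
    exact p_mul_coeff_zero p _
  have hxi : ∀ y : WittVector p C, (((p : WittVector p C) - teichmuller p t) * y).coeff 0 =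
      -(t * y.coeff 0) := by
    intro y
    have h1 : WittVector.constantCoeff (((p : WittVector p C) - teichmuller p t) * y) =
        -(t * y.coeff 0) := by
      rw [map_mul, map_sub, map_natCast, CharP.cast_eq_zero, zero_sub]
      change -((teichmuller p t).coeff 0) * y.coeff 0 = _
      rw [teichmuller_coeff_zero]
      ring
    exact h1
  induction m with
  | zero =>
    intro M hM J hJ x z y w hz h
    refine ⟨-y.coeff 0, ?_⟩
    have h1 := (exists_of_mem_WI p hJ hz).1
    rw [h, pow_zero, one_mul, hc, hc, hp0 M hM, hxi] at h1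
    rw [pow_zero, one_mul]
    convert h1 using 1
    ring
  | succ m ih =>
    intro M hM J hJ x z y w hz h
    obtain ⟨h1, z', hz', hzz⟩ := exists_of_mem_WI p hJ hz
    obtain ⟨M', rfl⟩ : ∃ M', M = M' + 1 := ⟨M - 1, by omega⟩
    set s : C := t ^ m * x.coeff 0 - y.coeff 0 with hs
    have hz0 : z.coeff 0 = t * s := by
      rw [h, hc, hc, hp0 _ (by omega), hxi, hc', ← map_pow, teichmuller_coeff_zero, hs]
      ring
    have hsJ : s ∈ colT J t := by
      rw [mem_colT, ← hz0]; exact h1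
    have h2 : teichmuller p t * (teichmuller p s + z' - teichmuller p t ^ m * x -
        (p : WittVector p C) ^ M' * w) = ((p : WittVector p C) - teichmuller p t) *
          (y - z' + (p : WittVector p C) ^ M' * w) := by
      rw [hz0, map_mul (teichmuller p)] at hzz
      linear_combination h - hzz
    obtain ⟨c, hcc⟩ := exists_of_te_mul ht h2
    obtain ⟨v, hv⟩ := ih M' (by omega) (isPerf_colT hJ t) x (teichmuller p s + z') c w
      (add_mem (te_mem_WI p hsJ) (WI_mono p (le_colT J t) hz'))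
      (by linear_combination hcc)
    refine ⟨v, ?_⟩
    rw [mem_colT] at hv
    rw [pow_succ', mul_assoc]
    exact hv

end A

section B

/-- parameters of `Λ/(p, γ)`. -/
theorem exists_params {Λ : Type u} [CommRing Λ] [IsLocalRing Λ] [IsNoetherianRing Λ] {r : ℕ}
    (π : Λ) (hπ : (Ideal.span {π}).IsPrime)
    (hdim : ringKrullDim (Λ ⧸ Ideal.span {π}) ≤ (r + 1 : ℕ)) (γ : Λ) (hγ : γ ∉ Ideal.span {π})
    (hγm : γ ∈ maximalIdeal Λ) :
    ∃ x : Fin r → Λ, (∀ i, x i ∈ maximalIdeal Λ) ∧ ∃ M : ℕ,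
      maximalIdeal Λ ^ M ≤ Ideal.span (insert π (insert γ (Set.range x))) := by
  have hπt : Ideal.span {π} ≠ ⊤ := hπ.ne_top
  have hdom : IsDomain (Λ ⧸ Ideal.span {π}) := Ideal.Quotient.isDomain _
  have hloc : IsLocalRing (Λ ⧸ Ideal.span {π}) :=
    IsLocalRing.of_surjective' (Ideal.Quotient.mk _) Ideal.Quotient.mk_surjective
  set q := Ideal.Quotient.mk (Ideal.span {π}) with hq
  have hlocal : IsLocalHom q := IsLocalHom.of_surjective q Ideal.Quotient.mk_surjective
  have hmm : ∀ a : Λ, a ∈ maximalIdeal Λ → q a ∈ maximalIdeal (Λ ⧸ Ideal.span {π}) := by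
    intro a ha
    rw [mem_maximalIdeal, mem_nonunits_iff] at ha ⊢
    exact fun h => ha (isUnit_of_map_unit q a h)
  have h0 : q γ ∈ nonZeroDivisors (Λ ⧸ Ideal.span {π}) := by
    rw [mem_nonZeroDivisors_iff_ne_zero]
    intro h
    exact hγ (Ideal.Quotient.eq_zero_iff_mem.1 h)
  obtain ⟨hl2, h2⟩ := ch_dim_quot (q γ) h0 (hmm γ hγm) hdim
  obtain ⟨x, hx, M, hM⟩ := ch_params h2
  set q2 := Ideal.Quotient.mk (Ideal.span {q γ}) with hq2
  have hlocal2 : IsLocalHom q2 := IsLocalHom.of_surjective q2 Ideal.Quotient.mk_surjective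
  have hs : Function.Surjective (q2.comp q) :=
    Ideal.Quotient.mk_surjective.comp Ideal.Quotient.mk_surjective
  choose y hy using fun i => hs (x i)
  have hker : RingHom.ker (q2.comp q) ≤ Ideal.span (insert π (insert γ (Set.range y))) := by
    intro a ha
    rw [RingHom.mem_ker, RingHom.comp_apply] at ha
    obtain ⟨c, hc⟩ := Ideal.mem_span_singleton'.1 (Ideal.Quotient.eq_zero_iff_mem.1 ha)
    obtain ⟨c, rfl⟩ := Ideal.Quotient.mk_surjective c
    have h3 : q (a - c * γ) = 0 := by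
      rw [map_sub, map_mul, ← hc]
      exact sub_self _
    have h4 := Ideal.Quotient.eq_zero_iff_mem.1 h3
    have h5 : a = (a - c * γ) + c * γ := by ring
    rw [h5]
    refine add_mem ?_ (Ideal.mul_mem_left _ _ (Ideal.subset_span
      (Set.mem_insert_of_mem _ (Set.mem_insert _ _))))
    exact Ideal.span_mono (Set.singleton_subset_iff.2 (Set.mem_insert _ _)) h4
  refine ⟨y, fun i => ?_, M, ?_⟩
  · have h3 := hx i
    rw [← hy i, mem_maximalIdeal, mem_nonunits_iff] at h3
    rw [mem_maximalIdeal, mem_nonunits_iff]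
    exact fun h => h3 (h.map _)
  · have h3 : (maximalIdeal Λ ^ M).map (q2.comp q) ≤
        (Ideal.span (insert π (insert γ (Set.range y)))).map (q2.comp q) := by
      rw [Ideal.map_pow]
      have h4 : (maximalIdeal Λ).map (q2.comp q) ≤ maximalIdeal _ := by
        rw [Ideal.map_le_iff_le_comap]
        intro a ha
        have h5 := hmm a ha
        rw [mem_maximalIdeal, mem_nonunits_iff] at h5
        rw [Ideal.mem_comap, mem_maximalIdeal, mem_nonunits_iff, RingHom.comp_apply]
        exact fun h => h5 (isUnit_of_map_unit q2 _ h)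
      refine (Ideal.pow_right_mono h4 M).trans (hM.trans ?_)
      rw [Ideal.map_span, Ideal.span_le]
      rintro _ ⟨i, rfl⟩
      refine Ideal.subset_span ⟨y i, ?_, hy i⟩
      exact Set.mem_insert_of_mem _ (Set.mem_insert_of_mem _ ⟨i, rfl⟩)
    rw [Ideal.map_le_iff_le_comap, Ideal.comap_map_of_surjective' _ hs] at h3
    exact h3.trans (sup_le le_rfl hker)

/-- **Lemma C.** -/
theorem exists_cut_of_mem {C : Type u} [CommRing C] {Λ : Type u} [CommRing Λ] [IsLocalRing Λ]
    [IsNoetherianRing Λ] {r : ℕ} (π : Λ) (u : Fin r → Λ)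
    (hmax : maximalIdeal Λ = Ideal.span (insert π (Set.range u)))
    (hπ : (Ideal.span {π}).IsPrime) (bar : Λ →+* C) (hbar : bar π = 0) (t : C)
    (ht : t ∈ Ideal.jacobson (⊥ : Ideal C)) (γ : Λ) (hγ : γ ∉ Ideal.span {π}) (J : Ideal C)
    (m : ℕ) (v : C) (h : t ^ m * (bar γ + t * v) ∈ J) :
    ∃ y : Fin r → C, (∀ j, y j ∈ Ideal.span (insert t (Set.range fun i => bar (u i)))) ∧
      ∃ L : ℕ, Ideal.span (insert t (Set.range fun i => bar (u i))) ^ L ≤
        Ideal.span (Set.range y) ⊔ J := by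
  classical
  set Y := Ideal.span (insert t (Set.range fun i => bar (u i))) with hY
  have htY : t ∈ Y := Ideal.subset_span (Set.mem_insert _ _)
  have huY : ∀ i, bar (u i) ∈ Y := fun i =>
    Ideal.subset_span (Set.mem_insert_of_mem _ ⟨i, rfl⟩)
  have hYfg : Y.FG := Submodule.fg_span (Set.Finite.insert t (Set.finite_range _))
  have hbarm : ∀ a ∈ maximalIdeal Λ, bar a ∈ Ideal.span (Set.range fun i => bar (u i)) := by
    intro a ha
    rw [hmax] at ha
    have h1 := Ideal.mem_map_of_mem bar ha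
    rw [Ideal.map_span, Set.image_insert_eq, hbar, ← Set.range_comp] at h1
    rwa [Ideal.span_insert_zero] at h1
  have hle : Ideal.span (Set.range fun i => bar (u i)) ≤ Y :=
    Ideal.span_mono (Set.subset_insert _ _)
  by_cases hγu : IsUnit γ
  · -- `t ^ m ∈ J`
    have h1 : IsUnit (bar γ + t * v) := by
      obtain ⟨w, hw⟩ := (hγu.map bar).exists_left_inv
      have h2 := (Ideal.mem_jacobson_bot.1 ht) (v * w)
      have h3 : w * (bar γ + t * v) = t * (v * w) + 1 := by
        rw [mul_add, hw]; ring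
      rw [← h3] at h2
      exact isUnit_of_mul_isUnit_right h2
    have h2 : t ^ m ∈ J := by
      obtain ⟨w, hw⟩ := h1.exists_right_inv
      have h3 := Ideal.mul_mem_right w J h
      rwa [mul_assoc, hw, mul_one] at h3
    refine ⟨fun i => bar (u i), huY, ?_⟩
    apply Ideal.exists_pow_le_of_le_radical_of_fg _ hYfg
    rw [hY, Ideal.span_le, Set.insert_subset_iff]
    refine ⟨⟨m, (le_sup_right : J ≤ _) h2⟩, ?_⟩
    rintro _ ⟨i, rfl⟩
    have h3 : bar (u i) ∈ Ideal.span (Set.range fun i => bar (u i)) ⊔ J :=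
      (le_sup_left : Ideal.span (Set.range fun i => bar (u i)) ≤ _)
        (Ideal.subset_span (Set.mem_range_self i))
    exact Ideal.le_radical h3
  · have hγm : γ ∈ maximalIdeal Λ := by rwa [mem_maximalIdeal, mem_nonunits_iff]
    obtain ⟨r', rfl⟩ : ∃ r', r = r' + 1 := by
      rcases Nat.eq_zero_or_pos r with h0 | h0
      · exfalso
        subst h0
        apply hγ
        rw [hmax] at hγm
        simpa using hγm
      · exact ⟨r - 1, by omega⟩
    have hdim : ringKrullDim (Λ ⧸ Ideal.span {π}) ≤ (r' + 1 : ℕ) := by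
      have hπt : Ideal.span {π} ≠ ⊤ := hπ.ne_top
      have hdom : IsDomain (Λ ⧸ Ideal.span {π}) := Ideal.Quotient.isDomain _
      have hloc : IsLocalRing (Λ ⧸ Ideal.span {π}) :=
        IsLocalRing.of_surjective' (Ideal.Quotient.mk _) Ideal.Quotient.mk_surjective
      have h1 : maximalIdeal (Λ ⧸ Ideal.span {π}) =
          Ideal.span (Set.range fun i => Ideal.Quotient.mk (Ideal.span {π}) (u i)) := by
        have h2 := IsLocalRing.map_maximalIdeal_of_surjective
          (Ideal.Quotient.mk (Ideal.span {π})) Ideal.Quotient.mk_surjective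
        rw [← h2, hmax, Ideal.map_span, Set.image_insert_eq, ← Set.range_comp]
        have h3 : Ideal.Quotient.mk (Ideal.span {π}) π = 0 :=
          Ideal.Quotient.eq_zero_iff_mem.2 (Ideal.mem_span_singleton_self _)
        rw [h3, Ideal.span_insert_zero]
        rfl
      rw [← IsLocalRing.maximalIdeal_height_eq_ringKrullDim]
      have h2 : (maximalIdeal (Λ ⧸ Ideal.span {π})).height ≤
          (maximalIdeal (Λ ⧸ Ideal.span {π})).spanFinrank :=
        Ideal.height_le_spanFinrank _ (maximalIdeal.isMaximal _).ne_top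
      have h3 : (maximalIdeal (Λ ⧸ Ideal.span {π})).spanFinrank ≤ r' + 1 := by
        rw [h1]
        refine (Submodule.spanFinrank_span_le_ncard_of_finite (Set.finite_range _)).trans ?_
        rw [← Set.image_univ]
        refine (Set.ncard_image_le Set.finite_univ).trans ?_
        rw [Set.ncard_univ, Nat.card_eq_fintype_card, Fintype.card_fin]
      exact_mod_cast h2.trans (by exact_mod_cast h3)
    obtain ⟨x, hx, M, hM⟩ := exists_params π hπ hdim γ hγ hγm
    set g := bar γ with hg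
    have hgY : g ∈ Y := hle (hbarm γ hγm)
    refine ⟨Fin.cons (t + g ^ 2) fun i => bar (x i), ?_, ?_⟩
    · intro j
      refine Fin.cases ?_ (fun i => ?_) j
      · rw [Fin.cons_zero]
        exact add_mem htY (Ideal.pow_mem_of_mem _ hgY _ (by norm_num))
      · rw [Fin.cons_succ]
        exact hle (hbarm _ (hx i))
    · set 𝔞 := Ideal.span (Set.range (Fin.cons (t + g ^ 2) fun i => bar (x i) :
        Fin (r' + 1) → C)) ⊔ J with h𝔞
      have ha1 : t + g ^ 2 ∈ 𝔞 := (le_sup_left : Ideal.span _ ≤ 𝔞) (Ideal.subset_span ⟨0, rfl⟩)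
      have ha2 : ∀ i, bar (x i) ∈ 𝔞 := fun i =>
        (le_sup_left : Ideal.span _ ≤ 𝔞) (Ideal.subset_span ⟨i.succ, rfl⟩)
      have ha3 : t ^ m * (g + t * v) ∈ 𝔞 := (le_sup_right : J ≤ 𝔞) h
      -- powers of `t` modulo `𝔞`
      have ha4 : ∀ n : ℕ, t ^ n - (-(g ^ 2)) ^ n ∈ 𝔞 := fun n => by
        refine 𝔞.mem_of_dvd (sub_dvd_pow_sub_pow t (-(g ^ 2)) n) ?_
        rw [sub_neg_eq_add]; exact ha1
      have ha5 : (-(g ^ 2)) ^ m * (g - g ^ 2 * v) ∈ 𝔞 := by
        have h1 := 𝔞.mul_mem_right (g + t * v) (ha4 m)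
        have h2 := 𝔞.mul_mem_left ((-(g ^ 2)) ^ m * v) ha1
        have h3 : (-(g ^ 2)) ^ m * (g - g ^ 2 * v) = t ^ m * (g + t * v) -
            (t ^ m - (-(g ^ 2)) ^ m) * (g + t * v) - (-(g ^ 2)) ^ m * v * (t + g ^ 2) := by ring
        rw [h3]
        exact sub_mem (sub_mem ha3 h1) h2
      have ha6 : g ^ (2 * m + 1) * (t * v ^ 2 + 1) ∈ 𝔞 := by
        have h1 := 𝔞.mul_mem_left ((-1) ^ m * (1 + g * v)) ha5
        have h2 := 𝔞.mul_mem_left (g ^ (2 * m + 1) * v ^ 2) ha1
        have h3 : g ^ (2 * m + 1) * (t * v ^ 2 + 1) = (-1) ^ m * (1 + g * v) *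
            ((-(g ^ 2)) ^ m * (g - g ^ 2 * v)) + g ^ (2 * m + 1) * v ^ 2 * (t + g ^ 2) := by
          have h4 : ((-1 : C)) ^ m * (-(g ^ 2)) ^ m = g ^ (2 * m) := by
            rw [← mul_pow, neg_one_mul, neg_neg, ← pow_mul]
          rw [show (-1 : C) ^ m * (1 + g * v) * ((-(g ^ 2)) ^ m * (g - g ^ 2 * v)) =
            ((-1 : C) ^ m * (-(g ^ 2)) ^ m) * ((1 + g * v) * (g - g ^ 2 * v)) by ring, h4]
          ring
        rw [h3]
        exact add_mem h1 h2
      have ha7 : g ^ (2 * m + 1) ∈ 𝔞 := by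
        obtain ⟨w, hw⟩ := ((Ideal.mem_jacobson_bot.1 ht) (v ^ 2)).exists_right_inv
        have h1 := 𝔞.mul_mem_right w ha6
        rwa [mul_assoc, hw, mul_one] at h1
      have hgr : g ∈ 𝔞.radical := ⟨_, ha7⟩
      apply Ideal.exists_pow_le_of_le_radical_of_fg _ hYfg
      rw [hY, Ideal.span_le, Set.insert_subset_iff]
      constructor
      · have h1 : t = (t + g ^ 2) - g ^ 2 := by ring
        rw [SetLike.mem_coe, h1]
        exact sub_mem (Ideal.le_radical ha1) (Ideal.pow_mem_of_mem _ hgr _ (by norm_num))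
      · rintro _ ⟨i, rfl⟩
        have h1 : u i ^ M ∈ maximalIdeal Λ ^ M := by
          refine Ideal.pow_mem_pow ?_ M
          rw [hmax]
          exact Ideal.subset_span (Set.mem_insert_of_mem _ ⟨i, rfl⟩)
        have h2 := Ideal.mem_map_of_mem bar (hM h1)
        rw [Ideal.map_span, map_pow] at h2
        have h3 : Ideal.span (bar '' insert π (insert γ (Set.range x))) ≤ 𝔞.radical := by
          rw [Ideal.span_le]
          rintro _ ⟨a, ha, rfl⟩
          rcases ha with rfl | rfl | ⟨i, rfl⟩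
          · rw [hbar]; exact zero_mem _
          · exact hgr
          · exact Ideal.le_radical (ha2 i)
        have h4 := h3 h2
        rw [SetLike.mem_coe, ← Ideal.radical_idem]
        exact ⟨M, h4⟩

end B

section C

variable {p : ℕ} [hp : Fact p.Prime]

/-- **CUT.** If `[η]^k ψ(γ) ∈ W(J) + (p - [t], p^M)`, `η ∣ t`, `t` regular and in the radical,
`γ ≠ 0` and `M` is large (depending on `γ` and `k` only), then `(t, u)^L ⊆ (y_1, .., y_r) + J` for
`r` elements `y_j ∈ (t, u)`. -/
theorem exists_cut {Λ : Type u} [CommRing Λ] [IsDomain Λ] [IsLocalRing Λ] [IsNoetherianRing Λ]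
    {r : ℕ} (u : Fin r → Λ) (hmax : maximalIdeal Λ = Ideal.span (insert (p : Λ) (Set.range u)))
    (hpr : Prime (p : Λ)) (γ : Λ) (hγ : γ ≠ 0) :
    ∃ a : ℕ, ∀ {C : Type u} [CommRing C] [CharP C p] [PerfectRing C p] (ψ : Λ →+* WittVector p C)
      (x : Fin r → C) (_ : ∀ i, ψ (u i) = teichmuller p (x i)) (t : C)
      (_ : t ∈ nonZeroDivisors C) (_ : t ∈ Ideal.jacobson (⊥ : Ideal C)) (η : C) (_ : η ∣ t)
      (k M : ℕ) (_ : k + a < M) (J : Ideal C) (_ : IsPerf p J) (z : WittVector p C)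
      (_ : z ∈ WI p J) (_ : teichmuller p η ^ k * ψ γ - z ∈ XI p t M),
      ∃ y : Fin r → C, (∀ j, y j ∈ Ideal.span (insert t (Set.range x))) ∧
        ∃ L : ℕ, Ideal.span (insert t (Set.range x)) ^ L ≤ Ideal.span (Set.range y) ⊔ J := by
  obtain ⟨a, γ', hγ', rfl⟩ := WfDvdMonoid.max_power_factor hγ hpr.irreducible
  have hγ'' : γ' ∉ Ideal.span {(p : Λ)} := fun h => hγ' (Ideal.mem_span_singleton.1 h)
  have hprime : (Ideal.span {(p : Λ)}).IsPrime := (Ideal.span_singleton_prime hpr.ne_zero).2 hpr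
  refine ⟨a, ?_⟩
  intro C _ _ _ ψ x hx t ht htj η hη k M hM J hJ z hz h
  obtain ⟨w, hw⟩ := hη
  obtain ⟨y, y', hyy⟩ := (mem_XI p).1 h
  -- `[t]^(k+a) ψ(γ') ∈ W(J) + (p - [t], p^M)`
  have hgeom : ∃ G : WittVector p C, (p : WittVector p C) ^ a - teichmuller p t ^ a =
      ((p : WittVector p C) - teichmuller p t) * G := by
    obtain ⟨G, hG⟩ := sub_dvd_pow_sub_pow (p : WittVector p C) (teichmuller p t) a
    exact ⟨G, hG⟩
  obtain ⟨G, hG⟩ := hgeom
  have h1 : teichmuller p w ^ k * z = teichmuller p t ^ (k + a) * ψ γ' +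
      ((p : WittVector p C) - teichmuller p t) * (teichmuller p t ^ k * G * ψ γ' -
        teichmuller p w ^ k * y) + (p : WittVector p C) ^ M * (-(teichmuller p w ^ k * y')) := by
    have h2 : teichmuller p t = teichmuller p η * teichmuller p w := by
      rw [hw, map_mul (teichmuller p)]
    have h3 : ψ ((p : Λ) ^ a * γ') = (p : WittVector p C) ^ a * ψ γ' := by
      rw [map_mul ψ, map_pow ψ, map_natCast]
    rw [h3] at hyy
    have h4 : teichmuller p t ^ k = teichmuller p η ^ k * teichmuller p w ^ k := by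
      rw [h2, mul_pow]
    rw [pow_add]
    linear_combination (-teichmuller p w ^ k) * hyy + teichmuller p t ^ k * ψ γ' * hG -
      (p : WittVector p C) ^ a * ψ γ' * h4
  obtain ⟨v, hv⟩ := exists_mem_of_te_pow ht (k + a) M hM hJ (ψ γ') (teichmuller p w ^ k * z) _ _
    (Ideal.mul_mem_left _ _ hz) h1
  let bar : Λ →+* C := (WittVector.constantCoeff : WittVector p C →+* C).comp ψ
  have hbu : ∀ i, bar (u i) = x i := by
    intro i
    show WittVector.constantCoeff (ψ (u i)) = x i
    rw [hx]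
    exact teichmuller_coeff_zero p (x i)
  have hb0 : bar (p : Λ) = 0 := by
    rw [map_natCast, CharP.cast_eq_zero]
  obtain ⟨y, h2, L, h3⟩ := exists_cut_of_mem (p : Λ) u hmax hprime bar hb0 t htj γ' hγ'' J
    (k + a) v hv
  simp only [hbu] at h2 h3
  exact ⟨y, h2, L, h3⟩

end C

end Vale.Agent.P177.NatC
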