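import Vale.Agent.P177.Nat.N5

/-!
P177, NatW: comparison of `WI J / (p - [t], p ^ N)` with `WI J' / (p - [t'], p ^ N)` for a
homomorphism `f : C → C'` of perfect rings, `f J ⊆ J'`, `t' = f t`.
-/

namespace Vale.Agent.P177.NatC

open Vale.Agent.P177.Perf Vale.Agent.P177.PI WittVector

universe u v

variable (p : ℕ) [hp : Fact p.Prime] {C : Type u} [CommRing C] [CharP C p] [PerfectRing C p]
  {C' : Type v} [CommRing C'] [CharP C' p] [PerfectRing C' p] (f : C →+* C')

theorem map_mem_WI {J : Ideal C} {J' : Ideal C'} (hJ : IsPerf p J) (h : ∀ x ∈ J, f x ∈ J')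
    {x : WittVector p C} (hx : x ∈ WI p J) : WittVector.map f x ∈ WI p J' := by
  refine mem_WI_of_coeff p fun k => ?_
  obtain ⟨c, hc, hce⟩ := coeff_of_mem_WI p hJ hx k
  exact ⟨f c, h c hc, by rw [map_coeff, hce, map_pow]⟩

/-- an element of `WI J` is congruent to `[a]` modulo `p WI J`. -/
theorem exists_of_coeff {J : Ideal C} (hJ : IsPerf p J) {x y : WittVector p C} (hx : x ∈ WI p J)
    (hy : y ∈ WI p J) (h : x.coeff 0 = y.coeff 0) :
    ∃ z ∈ WI p J, x = y + (p : WittVector p C) * z := by
  have h1 : (x - y).coeff 0 = 0 := by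
    have h2 : WittVector.constantCoeff (x - y) = 0 := by
      rw [map_sub]
      exact sub_eq_zero.2 h
    exact h2
  obtain ⟨z, hz, he⟩ := exists_p_mul_of_coeff_zero p hJ (sub_mem hx hy) h1
  exact ⟨z, hz, by rw [← he]; ring⟩

omit [CharP C p] [PerfectRing C p] in
/-- (S) almost surjectivity. -/
theorem natW_surj {J : Ideal C} {J' : Ideal C'} (hJ' : IsPerf p J')
    (hf : ∀ x ∈ J, f x ∈ J') (t θ : C)
    (hS : ∀ y ∈ J', ∃ x ∈ J, ∃ z ∈ J', f θ * y = f x + f t * z) (N : ℕ) :
    ∀ y ∈ WI p J', ∃ x ∈ WI p J, ∃ u ∈ WI p J', ∃ v ∈ WI p J',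
      teichmuller p (f θ) ^ N * y = WittVector.map f x +
        ((p : WittVector p C') - teichmuller p (f t)) * u + (p : WittVector p C') ^ N * v := by
  induction N with
  | zero =>
    intro y hy
    exact ⟨0, zero_mem _, 0, zero_mem _, y, hy, by simp⟩
  | succ N ih =>
    intro y hy
    obtain ⟨x0, hx0, z0, hz0, he0⟩ := hS _ (coeff_zero_mem p hJ' hy)
    obtain ⟨y1, hy1, he1⟩ := exists_of_coeff p hJ'
      (Ideal.mul_mem_left _ (teichmuller p (f θ)) hy)
      (add_mem (te_mem_WI p (hf _ hx0)) (te_mem_WI p (Ideal.mul_mem_left _ (f t) hz0))) (by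
        have h1 : (teichmuller p (f x0) + teichmuller p (f t * z0)).coeff 0 =
            (teichmuller p (f x0)).coeff 0 + (teichmuller p (f t * z0)).coeff 0 :=
          map_add (WittVector.constantCoeff (p := p) (R := C')) _ _
        rw [h1, P202.Mix.teichmuller_mul_coeff, pow_zero, pow_one, he0, teichmuller_coeff_zero,
          teichmuller_coeff_zero])
    obtain ⟨x, hx, u, hu, v, hv, he⟩ := ih (y1 + teichmuller p z0) (add_mem hy1 (te_mem_WI p hz0))
    refine ⟨teichmuller p θ ^ N * teichmuller p x0 + p * x,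
      add_mem (Ideal.mul_mem_left _ _ (te_mem_WI p hx0)) (Ideal.mul_mem_left _ _ hx),
      p * u - teichmuller p (f θ) ^ N * teichmuller p z0,
      sub_mem (Ideal.mul_mem_left _ _ hu) (Ideal.mul_mem_left _ _ (te_mem_WI p hz0)), v, hv, ?_⟩
    rw [map_add, map_mul, map_mul, map_pow, map_teichmuller, map_teichmuller, map_natCast]
    rw [map_mul] at he1
    linear_combination teichmuller p (f θ) ^ N * he1 + p * he

/-- (I) almost injectivity. -/
theorem natW_inj {J : Ideal C} {J' : Ideal C'} (hJ : IsPerf p J) (hJ' : IsPerf p J')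
    (hf : ∀ x ∈ J, f x ∈ J') (t θ : C) (ht : f t ∈ nonZeroDivisors C')
    (hI : ∀ x ∈ J, (∃ z ∈ J', f x = f t * z) → ∃ y ∈ J, θ * x = t * y) (N : ℕ) :
    ∀ x ∈ WI p J, (∃ u ∈ WI p J', ∃ v ∈ WI p J', WittVector.map f x =
        ((p : WittVector p C') - teichmuller p (f t)) * u + (p : WittVector p C') ^ N * v) →
      ∃ u ∈ WI p J, ∃ v ∈ WI p J, teichmuller p θ ^ N * x =
        ((p : WittVector p C) - teichmuller p t) * u + (p : WittVector p C) ^ N * v := by
  induction N with
  | zero =>
    intro x hx _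
    exact ⟨0, zero_mem _, x, hx, by simp⟩
  | succ N ih =>
    rintro x hx ⟨u, hu, v, hv, he⟩
    have h0 : f (x.coeff 0) = f t * -(u.coeff 0) := by
      have h1 := congrArg WittVector.constantCoeff he
      rw [map_add, map_mul, map_mul, map_sub, map_pow, map_natCast, CharP.cast_eq_zero, zero_sub,
        zero_pow (Nat.succ_ne_zero N), zero_mul, add_zero] at h1
      have h2 : (WittVector.map f x).coeff 0 = -(teichmuller p (f t)).coeff 0 * u.coeff 0 := h1
      rw [map_coeff, teichmuller_coeff_zero] at h2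
      rw [h2]; ring
    obtain ⟨y0, hy0, he0⟩ := hI _ (coeff_zero_mem p hJ hx)
      ⟨-(u.coeff 0), neg_mem (coeff_zero_mem p hJ' hu), h0⟩
    obtain ⟨x1, hx1, he1⟩ := exists_of_coeff p hJ (Ideal.mul_mem_left _ (teichmuller p θ) hx)
      (te_mem_WI p (Ideal.mul_mem_left _ t hy0)) (by
        rw [P202.Mix.teichmuller_mul_coeff, pow_zero, pow_one, he0, teichmuller_coeff_zero])
    rw [map_mul] at he1
    -- the next element
    have hx2 : teichmuller p y0 + x1 ∈ WI p J := add_mem (te_mem_WI p hy0) hx1
    have he2 : teichmuller p θ * x = -(((p : WittVector p C) - teichmuller p t) *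
        teichmuller p y0) + p * (teichmuller p y0 + x1) := by
      rw [he1]; ring
    have he3 := congrArg (WittVector.map f) he2
    rw [map_mul, map_add, map_neg, map_mul, map_mul, map_sub, map_teichmuller, map_teichmuller,
      map_teichmuller, map_natCast, he] at he3
    set u' : WittVector p C' := teichmuller p (f θ) * u + teichmuller p (f y0) with hu'
    have hu'J : u' ∈ WI p J' := add_mem (Ideal.mul_mem_left _ _ hu) (te_mem_WI p (hf _ hy0))
    have he4 : ((p : WittVector p C') - teichmuller p (f t)) * u' =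
        p * (WittVector.map f (teichmuller p y0 + x1) -
          p ^ N * (teichmuller p (f θ) * v)) := by
      rw [hu']
      linear_combination he3
    have h5 : u'.coeff 0 = 0 := by
      have h1 := congrArg WittVector.constantCoeff he4
      rw [map_mul, map_mul, map_sub, map_natCast, CharP.cast_eq_zero, zero_sub, zero_mul] at h1
      have h2 : -(teichmuller p (f t)).coeff 0 * u'.coeff 0 = 0 := h1
      rw [teichmuller_coeff_zero, neg_mul, neg_eq_zero] at h2
      exact (mul_left_mem_nonZeroDivisors_eq_zero_iff ht).1 h2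
    obtain ⟨u'', hu'', he5⟩ := exists_p_mul_of_coeff_zero p hJ' hu'J h5
    have he6 : WittVector.map f (teichmuller p y0 + x1) =
        ((p : WittVector p C') - teichmuller p (f t)) * u'' + (p : WittVector p C') ^ N *
          (teichmuller p (f θ) * v) := by
      have h6 : (WittVector.map f (teichmuller p y0 + x1) -
        (((p : WittVector p C') - teichmuller p (f t)) * u'' + (p : WittVector p C') ^ N *
          (teichmuller p (f θ) * v))) * (p : WittVector p C') = 0 := by
        rw [he5] at he4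
        linear_combination -he4
      exact sub_eq_zero.1 (WittVector.eq_zero_of_p_mul_eq_zero _ h6)
    obtain ⟨a, ha, b, hb, he7⟩ := ih _ hx2 ⟨u'', hu'', _, Ideal.mul_mem_left _ _ hv, he6⟩
    refine ⟨p * a - teichmuller p θ ^ N * teichmuller p y0,
      sub_mem (Ideal.mul_mem_left _ _ ha) (Ideal.mul_mem_left _ _ (te_mem_WI p hy0)), b, hb, ?_⟩
    linear_combination teichmuller p θ ^ N * he2 + p * he7

end Vale.Agent.P177.NatC
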