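import Vale.Agent.P177.Nat.NatSP

/-!
# The ring `C'` of P177 (structure only; existence in Nat/Zar.lean)

`C' =` localisation at `1 + t C^nat` of `C^nat = C[(t/η)^(1/p^∞)]`.
-/

namespace Vale.Agent.P177.CN

universe u

/-- the ring `C'` attached to `(C, t, η)`. -/
structure NatZ (p : ℕ) [hp : Fact p.Prime] (C : Type u) [CommRing C] [CharP C p] [PerfectRing C p]
    (t η : C) where
  C' : Type u
  [commRing : CommRing C']
  [charP : CharP C' p]
  [perfect : PerfectRing C' p]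
  f : C →+* C'
  reg : f t ∈ nonZeroDivisors C'
  jac : f t ∈ Ideal.jacobson (⊥ : Ideal C')
  dvd : f η ∣ f t
  n1 : ∀ (J : Ideal C), ∀ y ∈ J.map f, ∃ x ∈ J, ∃ z ∈ J.map f, f η * y = f x + f t * z
  n2 : ∀ (J : Ideal C), SP p J → ∀ x ∈ J, (∃ z ∈ J.map f, f x = f t * z) →
    ∃ y ∈ J, η ^ 3 * x = t * y

attribute [instance] NatZ.commRing NatZ.charP NatZ.perfect

end Vale.Agent.P177.CN
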