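import Vale.Agent.P177.Nat.ExactE

/-!
P177, (N6): the annihilators. If `φ E = (p - [t]) z + p ^ M w`, `z` a unit, and `φ 𝔥` is contained in
`(p - [t], p ^ M)`, then `p ^ K ∈ 𝔮 + 𝔥` with `K < M` implies `(p - [t], p ^ K) ⊆ 𝔮 W(C)`.
-/

namespace Vale.Agent.P177.NatC

open Vale.Agent.P177.Perf Vale.Agent.P177.PI WittVector

universe u v

variable (p : ℕ) [hp : Fact p.Prime] {C : Type u} [CommRing C] [CharP C p] [PerfectRing C p]

/-- `1 - p x` is a unit. -/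
theorem isUnit_one_sub_p_mul (x : WittVector p C) : IsUnit (1 - (p : WittVector p C) * x) := by
  apply isUnit_of_coeff_zero
  have h1 : (1 - (p : WittVector p C) * x).coeff 0 = 1 := by
    have h2 : WittVector.constantCoeff (1 - (p : WittVector p C) * x) = 1 := by
      rw [map_sub, map_mul, map_natCast, CharP.cast_eq_zero, zero_mul, sub_zero, map_one]
    exact h2
  rw [h1]
  exact isUnit_one

/-- the ideal `(p - [t], p ^ M)`. -/
noncomputable def XM (t : C) (M : ℕ) : Ideal (WittVector p C) :=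
  Ideal.span {(p : WittVector p C) - teichmuller p t} ⊔ Ideal.span {(p : WittVector p C) ^ M}

omit [CharP C p] [PerfectRing C p] in
theorem mem_XM {t : C} {M : ℕ} {x : WittVector p C} : x ∈ XM p t M ↔
    ∃ a b, x = ((p : WittVector p C) - teichmuller p t) * a + (p : WittVector p C) ^ M * b := by
  unfold XM
  rw [Submodule.mem_sup]
  constructor
  · rintro ⟨y, hy, z, hz, rfl⟩
    rw [Ideal.mem_span_singleton] at hy hz
    obtain ⟨a, rfl⟩ := hy
    obtain ⟨b, rfl⟩ := hz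
    exact ⟨a, b, rfl⟩
  · rintro ⟨a, b, rfl⟩
    exact ⟨_, Ideal.mul_mem_right _ _ (Ideal.mem_span_singleton_self _), _,
      Ideal.mul_mem_right _ _ (Ideal.mem_span_singleton_self _), rfl⟩

variable {S : Type*} [CommRing S] (φ : S →+* WittVector p C)

theorem p_pow_mem_map {t : C} {K M : ℕ} (hKM : K < M) {𝔮 𝔥 : Ideal S} {E : S}
    {z w : WittVector p C} (hz : IsUnit z) (hE𝔮 : E ∈ 𝔮)
    (hE : φ E = ((p : WittVector p C) - teichmuller p t) * z + (p : WittVector p C) ^ M * w)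
    (h𝔥 : ∀ x ∈ 𝔥, φ x ∈ XM p t M) (hpK : (p : S) ^ K ∈ 𝔮 ⊔ 𝔥) :
    (p : WittVector p C) ^ K ∈ 𝔮.map φ ∧ XM p t M ≤ 𝔮.map φ := by
  obtain ⟨u, rfl⟩ := hz
  have hu : (u : WittVector p C) * ↑u⁻¹ = 1 := Units.mul_inv u
  have hξ : (p : WittVector p C) - teichmuller p t = φ E * ↑u⁻¹ -
      (p : WittVector p C) ^ M * (w * ↑u⁻¹) := by
    rw [hE]
    linear_combination -((p : WittVector p C) - teichmuller p t) * hu
  have hφE : φ E ∈ 𝔮.map φ := Ideal.mem_map_of_mem φ hE𝔮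
  -- `XM` modulo `p ^ M`
  have hX : ∀ x ∈ XM p t M, ∃ y ∈ 𝔮.map φ, ∃ b, x = y + (p : WittVector p C) ^ M * b := by
    intro x hx
    obtain ⟨a, b, rfl⟩ := (mem_XM p).1 hx
    refine ⟨φ E * (↑u⁻¹ * a), Ideal.mul_mem_right _ _ hφE, b - w * ↑u⁻¹ * a, ?_⟩
    rw [hξ]; ring
  have hpK' : (p : WittVector p C) ^ K ∈ 𝔮.map φ := by
    obtain ⟨q, hq, h, hh, he⟩ := Submodule.mem_sup.1 hpK
    obtain ⟨y, hy, b, hb⟩ := hX _ (h𝔥 h hh)
    have h1 := congrArg φ he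
    rw [map_add, map_pow, map_natCast, hb] at h1
    obtain ⟨N, rfl⟩ : ∃ N, M = K + 1 + N := ⟨M - K - 1, by omega⟩
    obtain ⟨v, hv⟩ := isUnit_one_sub_p_mul p ((p : WittVector p C) ^ N * b)
    have h2 : (p : WittVector p C) ^ K = (φ q + y) * ↑v⁻¹ := by
      have h3 : (v : WittVector p C) * ↑v⁻¹ = 1 := Units.mul_inv v
      have h4 : (p : WittVector p C) ^ K * v = φ q + y := by
        rw [hv]
        linear_combination -h1
      rw [← h4, mul_assoc, h3, mul_one]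
    rw [h2]
    exact Ideal.mul_mem_right _ _ (add_mem (Ideal.mem_map_of_mem φ hq) hy)
  refine ⟨hpK', fun x hx => ?_⟩
  obtain ⟨y, hy, b, rfl⟩ := hX x hx
  refine add_mem hy ?_
  have h5 : (p : WittVector p C) ^ M * b = (p : WittVector p C) ^ K *
      ((p : WittVector p C) ^ (M - K) * b) := by
    rw [← mul_assoc, ← pow_add, Nat.add_sub_cancel' hKM.le]
  rw [h5]
  exact Ideal.mul_mem_right _ _ hpK'

omit [CharP C p] [PerfectRing C p] in
/-- elements congruent to `φ s`, `s ^ K ∈ 𝔮 + 𝔥`. -/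
theorem pow_mem_map_of_sub_mem {t : C} {M : ℕ} {𝔮 𝔥 : Ideal S}
    (hX : XM p t M ≤ 𝔮.map φ) (h𝔥 : ∀ x ∈ 𝔥, φ x ∈ XM p t M) {s : S} {K : ℕ}
    (hs : s ^ K ∈ 𝔮 ⊔ 𝔥) {v : WittVector p C} (hv : φ s - v ∈ XM p t M) : v ^ K ∈ 𝔮.map φ := by
  have h1 : (φ s) ^ K ∈ 𝔮.map φ := by
    obtain ⟨q, hq, h, hh, he⟩ := Submodule.mem_sup.1 hs
    rw [← map_pow, ← he, map_add]
    exact add_mem (Ideal.mem_map_of_mem φ hq) (hX (h𝔥 h hh))
  have h2 : v ^ K - (φ s) ^ K ∈ 𝔮.map φ := by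
    refine Ideal.mem_of_dvd _ (sub_dvd_pow_sub_pow v (φ s) K) ?_
    have := hX hv
    rw [← neg_mem_iff, neg_sub]
    exact this
  have := add_mem h2 h1
  rwa [sub_add_cancel] at this

omit [CharP C p] [PerfectRing C p] in
/-- `[t] ^ K`. -/
theorem te_pow_mem_map {t : C} {K M : ℕ} {𝔮 : Ideal S} (hX : XM p t M ≤ 𝔮.map φ)
    (hp : (p : WittVector p C) ^ K ∈ 𝔮.map φ) : teichmuller p t ^ K ∈ 𝔮.map φ := by
  have h2 : teichmuller p t ^ K - (p : WittVector p C) ^ K ∈ 𝔮.map φ := by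
    refine Ideal.mem_of_dvd _ (sub_dvd_pow_sub_pow _ _ K) ?_
    rw [← neg_mem_iff, neg_sub]
    exact hX ((mem_XM p).2 ⟨1, 0, by ring⟩)
  have := add_mem h2 hp
  rwa [sub_add_cancel] at this

end Vale.Agent.P177.NatC
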