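import Vale.Agent.P177.Nat.Piece

/-!
# Tor of the honest modules over `R ⊗ W(C)` and over `R ⊗ W(C')` (P177)
-/

namespace Vale.Agent.P177.NatG

open Vale.Agent.P177.PI Vale.Agent.P177.NatC WittVector TensorProduct Function
  Vale.Agent.P202.Mix

set_option linter.all false

universe u

section res

variable {A B C : Type u} [CommRing A] [CommRing B] [CommRing C]

theorem restrict_restrict (L : AddLen A) (a : A →+* B) (b : B →+* C) (M : Type u)
    [AddCommGroup M] [Module C M] : ((L.restrict a).restrict b).len M =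
      (L.restrict (b.comp a)).len M := rfl

theorem restrict_len_congr (L : AddLen A) {a a' : A →+* B} (h : a = a') (M : Type u)
    [AddCommGroup M] [Module B M] : (L.restrict a).len M = (L.restrict a').len M := by
  rw [h]

end res

section chi

variable (p : ℕ) [hp : Fact p.Prime] {S R C C' : Type u} [CommRing S] [CommRing R]
  [CommRing C] [CharP C p] [PerfectRing C p] [CommRing C'] [CharP C' p] [PerfectRing C' p]
  (f : C →+* C') (Φ : S →+* R) (hΦ : Surjective Φ) (E : S) (hE : RingHom.ker Φ = Ideal.span {E})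
  (ψ : S →+* WittVector p C)

/-- `R ⊗ W(C) → R ⊗ W(C')`. -/
noncomputable def tF (R : Type u) [CommRing R] (f : C →+* C') :
    R ⊗[ℤ] WittVector p C →ₐ[R] R ⊗[ℤ] WittVector p C' :=
  Algebra.TensorProduct.map (AlgHom.id R R) (WittVector.map f).toIntAlgHom

theorem tF_tmul (r : R) (w : WittVector p C) :
    tF p R f (r ⊗ₜ w) = r ⊗ₜ WittVector.map f w := rfl

theorem tF_comp_right : ((tF p R f : R ⊗[ℤ] WittVector p C →+* R ⊗[ℤ] WittVector p C')).comp
    (Algebra.TensorProduct.includeRight : WittVector p C →ₐ[ℤ] R ⊗[ℤ] WittVector p C).toRingHom =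
    ((Algebra.TensorProduct.includeRight : WittVector p C' →ₐ[ℤ]
      R ⊗[ℤ] WittVector p C').toRingHom).comp (WittVector.map f) := by
  ext w
  rfl

/-- the honest module of `J` over `R ⊗ W(C')`. -/
abbrev HJ' (J : Ideal C) : Type u :=
  HMod p (J.map f) (((WittVector.map f).comp ψ) E)
    (rhoD Φ hΦ E hE ((WittVector.map f).comp ψ) (RingHom.id (WittVector p C')))

theorem rhoF_eq (d : R ⊗[ℤ] WittVector p C) : rhoF p f Φ hΦ E hE ψ d =
    rhoD Φ hΦ E hE ((WittVector.map f).comp ψ) (RingHom.id (WittVector p C')) (tF p R f d) := by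
  induction d using TensorProduct.induction_on with
  | zero => simp only [map_zero]
  | tmul r w =>
    rw [tF_tmul]
    have e1 := rhoD_tmul Φ hΦ E hE ((WittVector.map f).comp ψ) (WittVector.map f) r w
    have e2 := rhoD_tmul Φ hΦ E hE ((WittVector.map f).comp ψ) (RingHom.id (WittVector p C')) r
      (WittVector.map f w)
    exact e1.trans e2.symm
  | add x y hx hy => rw [map_add, hx, hy, map_add, map_add]

/-- **Tor of the honest module over `R ⊗ W(C)` and over `R ⊗ W(C')`.** -/
theorem len_tor_HJ (L : AddLen (R ⊗[ℤ] WittVector p C)) (J : Ideal C) (n : ℕ) (K : Type u)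
    [AddCommGroup K] [Module R K] :
    L.len (TorM (R ⊗[ℤ] WittVector p C) n (HJ p f Φ hΦ E hE ψ J)
        ((R ⊗[ℤ] WittVector p C) ⊗[R] K)) =
      (L.restrict (tF p R f : R ⊗[ℤ] WittVector p C →+* R ⊗[ℤ] WittVector p C')).len
        (TorM (R ⊗[ℤ] WittVector p C') n (HJ' p f Φ hΦ E hE ψ J)
          ((R ⊗[ℤ] WittVector p C') ⊗[R] K)) := by
  let _ : Algebra (R ⊗[ℤ] WittVector p C) (R ⊗[ℤ] WittVector p C') :=
    (tF p R f : R ⊗[ℤ] WittVector p C →+* R ⊗[ℤ] WittVector p C').toAlgebra
  have hst : IsScalarTower R (R ⊗[ℤ] WittVector p C) (R ⊗[ℤ] WittVector p C') :=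
    IsScalarTower.of_algebraMap_eq fun r => (AlgHom.commutes (tF p R f) r).symm
  have hf1 := flat_tensor_witt p C R
  have hf2 := flat_tensor_witt p C' R
  exact len_tor_hmod L _ (fun d => rhoF_eq p f Φ hΦ E hE ψ d) n K

/-- the same for a length pulled back from `W(C)`. -/
theorem len_tor_HJ_W (L : AddLen (WittVector p C)) (J : Ideal C) (n : ℕ) (K : Type u)
    [AddCommGroup K] [Module R K] :
    (L.restrict (Algebra.TensorProduct.includeRight :
      WittVector p C →ₐ[ℤ] R ⊗[ℤ] WittVector p C).toRingHom).len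
      (TorM (R ⊗[ℤ] WittVector p C) n (HJ p f Φ hΦ E hE ψ J)
        ((R ⊗[ℤ] WittVector p C) ⊗[R] K)) =
      ((L.restrict (WittVector.map f)).restrict (Algebra.TensorProduct.includeRight :
        WittVector p C' →ₐ[ℤ] R ⊗[ℤ] WittVector p C').toRingHom).len
        (TorM (R ⊗[ℤ] WittVector p C') n (HJ' p f Φ hΦ E hE ψ J)
          ((R ⊗[ℤ] WittVector p C') ⊗[R] K)) := by
  rw [len_tor_HJ, restrict_restrict, restrict_restrict]
  exact restrict_len_congr L (tF_comp_right p f) _

end chi

end Vale.Agent.P177.NatG
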