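import Vale.Agent.P177.FlatTor
import Vale.Agent.P202.Mix.LamApi
import Vale.Agent.P202.Mix.LenBasic

/-!
# Change of the flat base ring in Tor (block GC of P177, Nat/Glue)

`S → B → B'`, `B` and `B'` flat over `S`, `N` a `B'`-module:
`Tor^B(B ⊗ K, N) = Tor^{B'}(B' ⊗ K, N)` as `B`-modules.
-/

namespace Vale.Agent.P177

open TensorProduct Function Vale.Agent.P202.Mix

universe u

set_option linter.all false

section

variable {S B B' : Type u} [CommRing S] [CommRing B] [CommRing B'] [Algebra S B] [Algebra S B']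
  [Algebra B B'] [IsScalarTower S B B']

theorem exists_tor_bc₂ [Module.Flat S B] [Module.Flat S B'] (n : ℕ) {K X X' : Type u}
    [AddCommGroup K] [Module S K]
    [AddCommGroup X] [Module S X] [Module B X] [IsScalarTower S B X]
    [AddCommGroup X'] [Module S X'] [Module B' X'] [IsScalarTower S B' X']
    {φ : K →ₗ[S] X} (hφ : IsBaseChange B φ) {φ' : K →ₗ[S] X'} (hφ' : IsBaseChange B' φ')
    (N : Type u) [AddCommGroup N] [Module S N] [Module B N] [Module B' N]
    [IsScalarTower S B N] [IsScalarTower S B' N] [IsScalarTower B B' N] :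
    ∃ e : TorM B n X N ≃+ TorM B' n X' N, ∀ (b : B) (x : TorM B n X N),
      e (b • x) = algebraMap B B' b • e x := by
  have hsm : ∀ (K : Type u) [AddCommGroup K] [Module S K] (b : B) (z : N ⊗[S] K),
      b • z = algebraMap B B' b • z := by
    intro K _ _ b z
    induction z using TensorProduct.induction_on with
    | zero => rw [smul_zero, smul_zero]
    | tmul x y => rw [TensorProduct.smul_tmul', TensorProduct.smul_tmul', algebraMap_smul]
    | add x y hx hy => rw [smul_add, smul_add, hx, hy]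
  induction n generalizing K X X' with
  | zero =>
    obtain ⟨eX, -⟩ := exists_cancel hφ N
    obtain ⟨eX', -⟩ := exists_cancel hφ' N
    let e1 : TorM B 0 X N ≃ₗ[B] N ⊗[S] K := torZero X N ≪≫ₗ TensorProduct.comm B X N ≪≫ₗ eX
    let e2 : TorM B' 0 X' N ≃ₗ[B'] N ⊗[S] K :=
      torZero X' N ≪≫ₗ TensorProduct.comm B' X' N ≪≫ₗ eX'
    refine ⟨e1.toAddEquiv.trans e2.symm.toAddEquiv, fun b x => ?_⟩
    change e2.symm (e1 (b • x)) = algebraMap B B' b • e2.symm (e1 x)
    rw [map_smul, hsm, map_smul]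
  | succ n ih =>
    obtain ⟨F, K1, _, _, _, _, i, g, hF, hi, hg, h⟩ := exists_cover S K
    obtain ⟨Y, _, _, _, _, ψ, hψ⟩ := exists_baseChange (R := S) B F
    obtain ⟨X1, _, _, _, _, φ1, hφ1⟩ := exists_baseChange (R := S) B K1
    obtain ⟨Y', _, _, _, _, ψ', hψ'⟩ := exists_baseChange (R := S) B' F
    obtain ⟨X1', _, _, _, _, φ1', hφ1'⟩ := exists_baseChange (R := S) B' K1
    let j : X1 →ₗ[B] Y := hφ1.lift (ψ ∘ₗ i)
    have hj : ∀ k, j (φ1 k) = ψ (i k) := fun k => hφ1.lift_eq _ k
    let q : Y →ₗ[B] X := hψ.lift (φ ∘ₗ g)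
    have hq : ∀ y, q (ψ y) = φ (g y) := fun y => hψ.lift_eq _ y
    have hjinj : Injective j := bc_injective hφ1 hψ i j hj hi
    have hqs : Surjective q := bc_surjective hψ hφ g q hq hg
    have hex : Exact j q := bc_exact hφ1 hψ hφ i j hj g q hq hg h
    have hYflat : Module.Flat B Y := Module.Flat.isBaseChange S B F Y hψ
    let j' : X1' →ₗ[B'] Y' := hφ1'.lift (ψ' ∘ₗ i)
    have hj' : ∀ k, j' (φ1' k) = ψ' (i k) := fun k => hφ1'.lift_eq _ k
    let q' : Y' →ₗ[B'] X' := hψ'.lift (φ' ∘ₗ g)
    have hq' : ∀ y, q' (ψ' y) = φ' (g y) := fun y => hψ'.lift_eq _ y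
    have hjinj' : Injective j' := bc_injective hφ1' hψ' i j' hj' hi
    have hqs' : Surjective q' := bc_surjective hψ' hφ' g q' hq' hg
    have hex' : Exact j' q' := bc_exact hφ1' hψ' hφ' i j' hj' g q' hq' hg h
    have hYflat' : Module.Flat B' Y' := Module.Flat.isBaseChange S B' F Y' hψ'
    cases n with
    | zero =>
      obtain ⟨e1⟩ := tor_one j q hjinj hqs hex N
      obtain ⟨e2⟩ := tor_one j' q' hjinj' hqs' hex' N
      obtain ⟨θ, hθ, ⟨e3⟩⟩ := exists_ker_bc hφ1 hψ i j hj N
      obtain ⟨θ', hθ', ⟨e4⟩⟩ := exists_ker_bc hφ1' hψ' i j' hj' N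
      let e5 : LinearMap.ker θ ≃+ LinearMap.ker θ' :=
        { toFun := fun x => ⟨x.1, by
            have := x.2
            rw [LinearMap.mem_ker, hθ] at this
            rw [LinearMap.mem_ker, hθ']
            exact this⟩
          invFun := fun x => ⟨x.1, by
            have := x.2
            rw [LinearMap.mem_ker, hθ'] at this
            rw [LinearMap.mem_ker, hθ]
            exact this⟩
          left_inv := fun x => rfl
          right_inv := fun x => rfl
          map_add' := fun x y => rfl }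
      let f1 : TorM B 1 X N ≃ₗ[B] LinearMap.ker θ := e1 ≪≫ₗ e3.symm
      let f2 : TorM B' 1 X' N ≃ₗ[B'] LinearMap.ker θ' := e2 ≪≫ₗ e4.symm
      refine ⟨(f1.toAddEquiv.trans e5).trans f2.symm.toAddEquiv, fun b x => ?_⟩
      change f2.symm (e5 (f1 (b • x))) = algebraMap B B' b • f2.symm (e5 (f1 x))
      rw [map_smul]
      have h5 : e5 (b • f1 x) = algebraMap B B' b • e5 (f1 x) := Subtype.ext (hsm K1 b _)
      rw [h5, map_smul]
    | succ n =>
      obtain ⟨e1⟩ := tor_shift j q hjinj hqs hex N n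
      obtain ⟨e2⟩ := tor_shift j' q' hjinj' hqs' hex' N n
      obtain ⟨e3, he3⟩ := ih hφ1 hφ1'
      refine ⟨(e1.toAddEquiv.trans e3).trans e2.symm.toAddEquiv, fun b x => ?_⟩
      change e2.symm (e3 (e1 (b • x))) = algebraMap B B' b • e2.symm (e3 (e1 x))
      rw [map_smul, he3, map_smul]

/-- The lengths of Tor over two flat base rings. -/
theorem len_tor_bc₂ [Module.Flat S B] [Module.Flat S B'] (L : AddLen B) (n : ℕ) {K X X' : Type u}
    [AddCommGroup K] [Module S K]
    [AddCommGroup X] [Module S X] [Module B X] [IsScalarTower S B X]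
    [AddCommGroup X'] [Module S X'] [Module B' X'] [IsScalarTower S B' X']
    {φ : K →ₗ[S] X} (hφ : IsBaseChange B φ) {φ' : K →ₗ[S] X'} (hφ' : IsBaseChange B' φ')
    (N : Type u) [AddCommGroup N] [Module S N] [Module B N] [Module B' N]
    [IsScalarTower S B N] [IsScalarTower S B' N] [IsScalarTower B B' N] :
    L.len (TorM B n X N) = (L.restrict (algebraMap B B')).len (TorM B' n X' N) := by
  obtain ⟨e, he⟩ := exists_tor_bc₂ n hφ hφ' N
  letI : Module B (TorM B' n X' N) := Module.compHom _ (algebraMap B B')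
  let e' : TorM B n X N ≃ₗ[B] TorM B' n X' N :=
    { e with map_smul' := fun b x => he b x }
  exact len_congr L e'

/-- The same with the big module in the first place. -/
theorem len_tor_bc₂' [Module.Flat S B] [Module.Flat S B'] (L : AddLen B) (n : ℕ) (K : Type u)
    [AddCommGroup K] [Module S K]
    (N : Type u) [AddCommGroup N] [Module S N] [Module B N] [Module B' N]
    [IsScalarTower S B N] [IsScalarTower S B' N] [IsScalarTower B B' N] :
    L.len (TorM B n N (B ⊗[S] K)) =
      (L.restrict (algebraMap B B')).len (TorM B' n N (B' ⊗[S] K)) := by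
  obtain ⟨e1⟩ := tor_symm n N (B ⊗[S] K) (R := B)
  obtain ⟨e2⟩ := tor_symm n N (B' ⊗[S] K) (R := B')
  rw [len_congr L e1, len_congr (L.restrict (algebraMap B B')) e2]
  exact len_tor_bc₂ L n (TensorProduct.isBaseChange S K B) (TensorProduct.isBaseChange S K B') N

end

end Vale.Agent.P177
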