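import Vale.Agent.P177.Nat.GlueB
import Vale.Agent.P177.Nat.TorBC

/-!
# The honest modules `H = WI J' / E' WI J'` with their module structures (P177)

`Φ : S → R` surjective with kernel `(E)`, `ψ : S → W(C')`, `F : V → W(C')` (`V = W(C)` or
`V = W(C')`).  `R ⊗ V` acts on `H` through `R ⊗ V → W(C') / ψ E`.
-/

namespace Vale.Agent.P177.NatG

open Vale.Agent.P177.PI Vale.Agent.P177.NatC WittVector TensorProduct Function
  Vale.Agent.P202.Mix

set_option linter.all false

universe u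

section rho

variable {S R W' V : Type u} [CommRing S] [CommRing R] [CommRing W'] [CommRing V]

/-- `R = S / E → W' / ψ E`. -/
noncomputable def rhoR (Φ : S →+* R) (hΦ : Surjective Φ) (E : S)
    (hE : RingHom.ker Φ = Ideal.span {E}) (ψ : S →+* W') : R →+* W' ⧸ Ideal.span {ψ E} :=
  RingHom.liftOfSurjective Φ hΦ ⟨(Ideal.Quotient.mk (Ideal.span {ψ E})).comp ψ, by
    rw [hE, Ideal.span_singleton_le_iff_mem, RingHom.mem_ker, RingHom.comp_apply,
      Ideal.Quotient.eq_zero_iff_mem]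
    exact Ideal.mem_span_singleton_self _⟩

theorem rhoR_apply (Φ : S →+* R) (hΦ : Surjective Φ) (E : S)
    (hE : RingHom.ker Φ = Ideal.span {E}) (ψ : S →+* W') (s : S) :
    rhoR Φ hΦ E hE ψ (Φ s) = Ideal.Quotient.mk _ (ψ s) :=
  RingHom.liftOfRightInverse_comp_apply _ _ _ _ s

/-- `R ⊗ V → W' / ψ E`. -/
noncomputable def rhoD (Φ : S →+* R) (hΦ : Surjective Φ) (E : S)
    (hE : RingHom.ker Φ = Ideal.span {E}) (ψ : S →+* W') (F : V →+* W') :
    R ⊗[ℤ] V →+* W' ⧸ Ideal.span {ψ E} :=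
  (Algebra.TensorProduct.productMap (rhoR Φ hΦ E hE ψ).toIntAlgHom
    ((Ideal.Quotient.mk (Ideal.span {ψ E})).comp F).toIntAlgHom).toRingHom

theorem rhoD_tmul (Φ : S →+* R) (hΦ : Surjective Φ) (E : S)
    (hE : RingHom.ker Φ = Ideal.span {E}) (ψ : S →+* W') (F : V →+* W') (r : R) (v : V) :
    rhoD Φ hΦ E hE ψ F (r ⊗ₜ v) = rhoR Φ hΦ E hE ψ r * Ideal.Quotient.mk _ (F v) := by
  unfold rhoD
  change (Algebra.TensorProduct.productMap (rhoR Φ hΦ E hE ψ).toIntAlgHom
    ((Ideal.Quotient.mk (Ideal.span {ψ E})).comp F).toIntAlgHom) (r ⊗ₜ v) = _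
  rw [Algebra.TensorProduct.productMap_apply_tmul]
  rfl

theorem rhoD_left (Φ : S →+* R) (hΦ : Surjective Φ) (E : S)
    (hE : RingHom.ker Φ = Ideal.span {E}) (ψ : S →+* W') (F : V →+* W') (s : S) :
    rhoD Φ hΦ E hE ψ F ((Φ s) ⊗ₜ 1) = Ideal.Quotient.mk _ (ψ s) := by
  rw [rhoD_tmul, rhoR_apply, map_one, map_one, mul_one]

theorem rhoD_right (Φ : S →+* R) (hΦ : Surjective Φ) (E : S)
    (hE : RingHom.ker Φ = Ideal.span {E}) (ψ : S →+* W') (F : V →+* W') (v : V) :
    rhoD Φ hΦ E hE ψ F (1 ⊗ₜ v) = Ideal.Quotient.mk _ (F v) := by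
  rw [rhoD_tmul, map_one, one_mul]

end rho

section HMod

variable (p : ℕ) [hp : Fact p.Prime] {C' : Type u} [CommRing C'] {D : Type u} [CommRing D]

/-- the honest module of `J'`, on which `D` acts through `ρ : D → W(C') / E'`. -/
def HMod (J' : Ideal C') (E' : WittVector p C') (ρ : D →+* WittVector p C' ⧸ Ideal.span {E'}) :
    Type u := HM p J' E'

variable {p} (J' : Ideal C') (E' : WittVector p C')
  (ρ : D →+* WittVector p C' ⧸ Ideal.span {E'})

noncomputable instance : AddCommGroup (HMod p J' E' ρ) := inferInstanceAs (AddCommGroup (HM p J' E'))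

noncomputable instance : Module (WittVector p C') (HMod p J' E' ρ) :=
  inferInstanceAs (Module (WittVector p C') (HM p J' E'))

noncomputable instance : Module D (HMod p J' E' ρ) :=
  Module.compHom (HM p J' E') ρ

variable {J' E' ρ}

theorem hmod_smul (d : D) (w : WittVector p C') (h : ρ d = Ideal.Quotient.mk _ w)
    (x : HMod p J' E' ρ) : d • x = w • x := by
  obtain ⟨y, rfl⟩ := Submodule.Quotient.mk_surjective _ x
  change ρ d • (Submodule.Quotient.mk y : HM p J' E') = w • (Submodule.Quotient.mk y : HM p J' E')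
  rw [h]
  rfl

/-- the class of an element of `WI J'`. -/
noncomputable def hcl (ρ : D →+* WittVector p C' ⧸ Ideal.span {E'}) (x : WI p J') : HMod p J' E' ρ :=
  (Submodule.Quotient.mk x : HM p J' E')

theorem hcl_surj (y : HMod p J' E' ρ) : ∃ x, hcl ρ x = y := Submodule.Quotient.mk_surjective _ y

theorem hcl_eq_zero (x : WI p J') : hcl ρ x = 0 ↔ ∃ y ∈ WI p J', (x : WittVector p C') = E' * y :=
  hm_mk_eq_zero x

theorem hcl_add (x y : WI p J') : hcl ρ (x + y) = hcl ρ x + hcl ρ y := rfl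

theorem hcl_smul (w : WittVector p C') (x : WI p J') : hcl ρ (w • x) = w • hcl ρ x := rfl

variable {D' : Type u} [CommRing D'] [Algebra D D']

/-- the same module over two rings. -/
noncomputable def hmodEquiv (ρ' : D' →+* WittVector p C' ⧸ Ideal.span {E'})
    (hρ : ∀ d, ρ d = ρ' (algebraMap D D' d)) :
    HMod p J' E' ρ ≃+ HMod p J' E' ρ' := AddEquiv.refl _

theorem hmodEquiv_smul (ρ' : D' →+* WittVector p C' ⧸ Ideal.span {E'})
    (hρ : ∀ d, ρ d = ρ' (algebraMap D D' d)) (d : D) (x : HMod p J' E' ρ) :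
    hmodEquiv ρ' hρ (d • x) = algebraMap D D' d • hmodEquiv ρ' hρ x := by
  obtain ⟨w, hw⟩ := Ideal.Quotient.mk_surjective (ρ d)
  rw [hmod_smul d w hw.symm]
  rw [hmod_smul (algebraMap D D' d) w (by rw [← hρ, hw])]
  rfl

/-- **Tor of the honest module over two rings flat over `R`.** -/
theorem len_tor_hmod {R : Type u} [CommRing R] [Algebra R D] [Algebra R D'] [IsScalarTower R D D']
    [Module.Flat R D] [Module.Flat R D'] (L : AddLen D)
    (ρ' : D' →+* WittVector p C' ⧸ Ideal.span {E'}) (hρ : ∀ d, ρ d = ρ' (algebraMap D D' d))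
    (n : ℕ) (K : Type u) [AddCommGroup K] [Module R K] :
    L.len (TorM D n (HMod p J' E' ρ) (D ⊗[R] K)) =
      (L.restrict (algebraMap D D')).len (TorM D' n (HMod p J' E' ρ') (D' ⊗[R] K)) := by
  let iD : Module D (HMod p J' E' ρ') := Module.compHom _ (algebraMap D D')
  let iR : Module R (HMod p J' E' ρ') := Module.compHom _ (algebraMap R D')
  have h1 : IsScalarTower D D' (HMod p J' E' ρ') := IsScalarTower.of_algebraMap_smul fun _ _ => rfl
  have h2 : IsScalarTower R D' (HMod p J' E' ρ') := IsScalarTower.of_algebraMap_smul fun _ _ => rfl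
  have h3 : IsScalarTower R D (HMod p J' E' ρ') := IsScalarTower.of_algebraMap_smul fun r x => by
    change algebraMap D D' (algebraMap R D r) • x = algebraMap R D' r • x
    rw [← IsScalarTower.algebraMap_apply R D D']
  let e : HMod p J' E' ρ ≃ₗ[D] HMod p J' E' ρ' :=
    { hmodEquiv ρ' hρ with map_smul' := fun d x => hmodEquiv_smul ρ' hρ d x }
  rw [len_congr L (torCongrLeft n e (D ⊗[R] K))]
  exact len_tor_bc₂' L n K (HMod p J' E' ρ')

end HMod

end Vale.Agent.P177.NatG
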