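import Vale.Agent.P177.Nat.BaseR
import Vale.Agent.P177.Nat.HMod

/-!
P177: Koszul masses of the honest modules `HMod`.
-/

namespace Vale.Agent.P177.MN

open Vale.Agent.P177.KG Vale.Agent.P202.Mix Vale.Agent.P177.PI Vale.Agent.P177.NatG WittVector
  IsLocalRing
open scoped ENNReal TensorProduct

universe u

section H

variable (p : ℕ) [hp : Fact p.Prime] {C' : Type u} [CommRing C'] [CharP C' p] [PerfectRing C' p]
  {V D : Type u} [CommRing V] [CommRing D] [Algebra V D] {n : ℕ}

/-- **Koszul masses of the honest module**: `H_i(p, u; H) = H_i(t, u; J')`. -/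
theorem KC_len_HMod (LV : ALen V) (Fv : V →+* WittVector p C') {J' : Ideal C'}
    (hJ : IsPerf p J') (E' : WittVector p C') (ρ : D →+* WittVector p C' ⧸ Ideal.span {E'})
    (hρ : ∀ v, ρ (algebraMap V D v) = Ideal.Quotient.mk _ (Fv v)) (t : V)
    (ht : (Fv t).coeff 0 ∈ nonZeroDivisors C') (v : C'ˣ)
    (hE : E'.coeff 0 = v * (Fv t).coeff 0) (ud : Fin n → D) (uv : Fin n → V)
    (hu : ∀ l, ∃ b : WittVector p C', ρ (ud l) = Ideal.Quotient.mk _ (Fv (uv l) + p * b))
    (i : ℕ) :
    let := (WittVector.constantCoeff.comp Fv).toAlgebra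
    (LV.res D).len ((KC (HMod p J' E' ρ) ((p : D) :: List.ofFn ud)).H i) =
      LV.len ((KC ↥J' (t :: List.ofFn uv)).H i) := by
  intro _
  let _ : Algebra V (WittVector p C') := Fv.toAlgebra
  let _ : Module V (HMod p J' E' ρ) := Module.compHom _ (algebraMap V D)
  have : IsScalarTower V D (HMod p J' E' ρ) := IsScalarTower.of_algebraMap_smul fun _ _ => rfl
  have hcomp : ∀ r : V, algebraMap V C' r = (algebraMap V (WittVector p C') r).coeff 0 :=
    fun r => rfl
  have hsm : ∀ (r : V) (x : HMod p J' E' ρ), r • x = Fv r • x := fun r x =>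
    hmod_smul (algebraMap V D r) (Fv r) (hρ r) x
  let ρ' : ↥(WI p J') →ₗ[V] HMod p J' E' ρ :=
    { toFun := hcl ρ
      map_add' := fun x y => rfl
      map_smul' := fun r x => by
        rw [RingHom.id_apply, hsm, ← hcl_smul]
        rfl }
  have hρ' : Function.Surjective ρ' := fun y => hcl_surj y
  have hk : ∀ x : ↥(WI p J'), ρ' x = 0 ↔ ∃ w ∈ WI p J', (x : WittVector p C') = E' * w :=
    fun x => hcl_eq_zero x
  have hEn : E'.coeff 0 ∈ nonZeroDivisors C' := by
    rw [hE]
    exact mul_mem v.isUnit.mem_nonZeroDivisors ht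
  have hpX : ∀ x : HMod p J' E' ρ, (p : V) • x = 0 → x = 0 := by
    intro m h
    obtain ⟨x, rfl⟩ := hρ' m
    rw [← map_smul] at h
    obtain ⟨w, hw, he⟩ := (hk _).1 h
    have he' : (p : WittVector p C') * (x : WittVector p C') = E' * w := by
      rw [← he]
      show _ = (p : V) • (x : WittVector p C')
      rw [Algebra.smul_def, map_natCast]
    obtain ⟨w', hw', he''⟩ := KM.wi_p_reg p hJ hEn hw he'
    exact (hk x).2 ⟨w', hw', he''⟩
  rw [KC_len_mod LV p hpX ud uv ?_ i]
  · exact KC_len_WIE LV hcomp hJ t ht E' v hE ρ' hρ' hk (List.ofFn uv) i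
  · intro l x
    obtain ⟨b, hb⟩ := hu l
    refine ⟨b • x, ?_⟩
    rw [hmod_smul (ud l) _ hb, hsm, hsm, add_smul, mul_smul, map_natCast]

end H

end Vale.Agent.P177.MN
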