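import Vale.Agent.P177.Nat.MassN
import Vale.Agent.P177.KM.KW

/-!
P177, GD: Koszul masses of `J`, `J'`, `WI J`, `WI J / E`.
-/

namespace Vale.Agent.P177.MN

open Vale.Agent.P177.KG Vale.Agent.P202.Mix Vale.Agent.P177.PI WittVector
open scoped ENNReal

universe u

section J

variable {R C C' : Type u} [CommRing R] [CommRing C] [CommRing C'] [Algebra R C] [Algebra R C']

/-- `t J` as a submodule of `J`, over the base ring. -/
def tJ (R : Type u) [CommRing R] [Algebra R C] (t : R) (J : Ideal C) : Submodule R ↥J :=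
  LinearMap.range (LinearMap.lsmul R ↥J t)

theorem mem_tJ {t : R} {J : Ideal C} {x : ↥J} : x ∈ tJ R t J ↔ ∃ y : ↥J, t • y = x := Iff.rfl

/-- the quotient `J / t J`. -/
abbrev Jt (R : Type u) [CommRing R] [Algebra R C] (t : R) (J : Ideal C) : Type u := ↥J ⧸ tJ R t J

theorem KC_len_Jt (L : ALen R) (t : R) (J : Ideal C)
    (ht : ∀ x ∈ J, algebraMap R C t * x = 0 → x = 0) (xs : List R) (i : ℕ) :
    L.len ((KC ↥J (t :: xs)).H i) = L.len ((KC (Jt R t J) xs).H i) := by
  refine KC_len_cons L t ?_ (tJ R t J).mkQ (Submodule.mkQ_surjective _) ?_ xs i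
  · rintro ⟨x, hx⟩ h
    apply Subtype.ext
    apply ht x hx
    have h1 : t • x = 0 := congrArg Subtype.val h
    rwa [Algebra.smul_def] at h1
  · intro m
    rw [Submodule.mkQ_apply, Submodule.Quotient.mk_eq_zero, mem_tJ]

/-- the map `J / t J → J' / t J'`. -/
def phiJ (f : C →ₐ[R] C') (t : R) (J : Ideal C) (J' : Ideal C') (hJ : ∀ x ∈ J, f x ∈ J') :
    Jt R t J →ₗ[R] Jt R t J' :=
  Submodule.mapQ (tJ R t J) (tJ R t J')
    { toFun := fun x => ⟨f x, hJ x x.2⟩
      map_add' := fun x y => Subtype.ext (map_add f (x : C) y)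
      map_smul' := fun r x => Subtype.ext (map_smul f r (x : C)) } (by
    rintro _ ⟨y, rfl⟩
    refine ⟨⟨f y, hJ y y.2⟩, Subtype.ext ?_⟩
    exact (map_smul f t (y : C)).symm)

/-- the Koszul masses of `J` and `J'` are equal. -/
theorem KC_len_J_eq (L : ALen R) {η : R}
    (hη : ∀ (M : Type u) [AddCommGroup M] [Module R M], (∀ m : M, η • m = 0) → L.len M = 0)
    (f : C →ₐ[R] C') (t : R) (J : Ideal C) (J' : Ideal C') (hJ : ∀ x ∈ J, f x ∈ J')
    (ht : ∀ x ∈ J, algebraMap R C t * x = 0 → x = 0)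
    (ht' : ∀ x ∈ J', algebraMap R C' t * x = 0 → x = 0)
    (h4 : ∀ y ∈ J', ∃ x ∈ J, ∃ z ∈ J', algebraMap R C' η * y = f x + algebraMap R C' t * z)
    (h5 : ∀ x ∈ J, ∀ z ∈ J', f x = algebraMap R C' t * z →
      ∃ w ∈ J, algebraMap R C η ^ 3 * x = algebraMap R C t * w) (xs : List R) (i : ℕ) :
    L.len ((KC ↥J (t :: xs)).H i) = L.len ((KC ↥J' (t :: xs)).H i) := by
  rw [KC_len_Jt L t J ht, KC_len_Jt L t J' ht']
  have hη3 : ∀ (M : Type u) [AddCommGroup M] [Module R M], (∀ m : M, η ^ 3 • m = 0) →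
      L.len M = 0 := by
    intro M _ _ hM
    let f : M →ₗ[R] M := LinearMap.lsmul R M η
    have hstep : ∀ (N : Type u) [AddCommGroup N] [Module R N] (k : ℕ),
        (∀ m : N, η ^ k • m = 0) → L.len N = 0 := by
      intro N _ _ k
      induction k generalizing N with
      | zero =>
        intro h
        have : Subsingleton N := ⟨fun a b => by
          have ha := h a
          have hb := h b
          rw [pow_zero, one_smul] at ha hb
          rw [ha, hb]⟩
        exact len_subsingleton L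
      | succ k ih =>
        intro h
        let g : N →ₗ[R] N := LinearMap.lsmul R N η
        rw [len_sub_quot L (LinearMap.ker g), hη _ (by
          rintro ⟨m, hm⟩
          exact Subtype.ext hm), zero_add, len_congr L g.quotKerEquivRange]
        refine ih _ ?_
        rintro ⟨m, x, rfl⟩
        apply Subtype.ext
        show η ^ k • η • x = 0
        rw [smul_smul, ← pow_succ]
        exact h x
    exact hstep M 3 hM
  refine KC_len_eq_of_null L (phiJ f t J J' hJ) (hη3 _ ?_) (hη _ ?_) xs i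
  · rintro ⟨m, hm⟩
    obtain ⟨x, rfl⟩ := Submodule.mkQ_surjective _ m
    have h1 : (tJ R t J').mkQ ⟨f x, hJ x x.2⟩ = 0 := hm
    rw [Submodule.mkQ_apply, Submodule.Quotient.mk_eq_zero, mem_tJ] at h1
    obtain ⟨z, hz⟩ := h1
    have h2 : f x = algebraMap R C' t * (z : C') := by
      have h3 : t • (z : C') = f x := congrArg Subtype.val hz
      rw [← h3, Algebra.smul_def]
    obtain ⟨w, hw, hwe⟩ := h5 x x.2 z z.2 h2
    apply Subtype.ext
    show η ^ 3 • (tJ R t J).mkQ x = 0
    rw [← map_smul, Submodule.mkQ_apply, Submodule.Quotient.mk_eq_zero, mem_tJ]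
    refine ⟨⟨w, hw⟩, Subtype.ext ?_⟩
    show t • w = η ^ 3 • (x : C)
    rw [Algebra.smul_def, Algebra.smul_def, map_pow, hwe]
  · intro m
    obtain ⟨m, rfl⟩ := Submodule.mkQ_surjective _ m
    obtain ⟨y, rfl⟩ := Submodule.mkQ_surjective _ m
    obtain ⟨x, hx, z, hz, he⟩ := h4 y y.2
    rw [← map_smul, Submodule.mkQ_apply, Submodule.Quotient.mk_eq_zero]
    refine ⟨(tJ R t J).mkQ ⟨x, hx⟩, ?_⟩
    show (tJ R t J').mkQ ⟨f x, hJ x hx⟩ = η • (tJ R t J').mkQ y
    rw [← map_smul, ← sub_eq_zero, ← map_sub, Submodule.mkQ_apply,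
      Submodule.Quotient.mk_eq_zero, mem_tJ]
    refine ⟨⟨-z, neg_mem hz⟩, Subtype.ext ?_⟩
    show t • (-z) = f x - η • (y : C')
    rw [Algebra.smul_def, Algebra.smul_def, he]
    ring

end J

section W

variable (p : ℕ) [hp : Fact p.Prime] {R C : Type u} [CommRing R] [CommRing C] [CharP C p]
  [PerfectRing C p] [Algebra R C] [Algebra R (WittVector p C)]

/-- the reduction `WI J → J` over the base ring. -/
noncomputable def redJ (hcomp : ∀ r : R, algebraMap R C r =
      (algebraMap R (WittVector p C) r).coeff 0) {J : Ideal C} (hJ : IsPerf p J) :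
    ↥(WI p J) →ₗ[R] ↥J where
  toFun x := ⟨(x : WittVector p C).coeff 0, coeff_zero_mem p hJ x.2⟩
  map_add' x y := Subtype.ext (map_add (WittVector.constantCoeff (p := p) (R := C))
    (x : WittVector p C) y)
  map_smul' r x := by
    apply Subtype.ext
    show (r • (x : WittVector p C)).coeff 0 = r • (x : WittVector p C).coeff 0
    rw [Algebra.smul_def, Algebra.smul_def, hcomp]
    exact map_mul (WittVector.constantCoeff (p := p) (R := C)) _ _

variable {p}

theorem redJ_surjective (hcomp : ∀ r : R, algebraMap R C r =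
      (algebraMap R (WittVector p C) r).coeff 0) {J : Ideal C} (hJ : IsPerf p J) :
    Function.Surjective (redJ p hcomp hJ) := by
  rintro ⟨x, hx⟩
  exact ⟨⟨teichmuller p x, te_mem_WI p hx⟩, Subtype.ext (teichmuller_coeff_zero p x)⟩

/-- `H_i(p :: xs; WI J) = H_i(xs; J)`. -/
theorem KC_len_WI (L : ALen R) (hcomp : ∀ r : R, algebraMap R C r =
      (algebraMap R (WittVector p C) r).coeff 0) {J : Ideal C} (hJ : IsPerf p J)
    (xs : List R) (i : ℕ) :
    L.len ((KC ↥(WI p J) ((p : R) :: xs)).H i) = L.len ((KC ↥J xs).H i) := by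
  refine KC_len_cons L (p : R) ?_ (redJ p hcomp hJ) (redJ_surjective hcomp hJ) ?_ xs i
  · rintro ⟨x, hx⟩ h
    apply Subtype.ext
    have h1 : (p : R) • x = 0 := congrArg Subtype.val h
    rw [Algebra.smul_def, map_natCast] at h1
    exact p_reg p x h1
  · rintro ⟨x, hx⟩
    constructor
    · intro h
      have h0 : x.coeff 0 = 0 := congrArg Subtype.val h
      obtain ⟨y, hy, hyx⟩ := exists_p_mul_of_coeff_zero p hJ hx h0
      refine ⟨⟨y, hy⟩, Subtype.ext ?_⟩
      show (p : R) • y = x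
      rw [Algebra.smul_def, map_natCast, hyx]
    · rintro ⟨y, hy⟩
      rw [← hy, map_smul]
      apply Subtype.ext
      show (p : R) • ((redJ p hcomp hJ y : ↥J) : C) = 0
      rw [Algebra.smul_def, map_natCast, CharP.cast_eq_zero, zero_mul]

/-- `H_i(p :: xs; WI J / E) = H_i(t :: xs; J)` if the reduction of `E` is a unit times `t`. -/
theorem KC_len_WIE (L : ALen R) (hcomp : ∀ r : R, algebraMap R C r =
      (algebraMap R (WittVector p C) r).coeff 0) {J : Ideal C} (hJ : IsPerf p J) (t : R)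
    (ht : algebraMap R C t ∈ nonZeroDivisors C) (E : WittVector p C) (v : Cˣ)
    (hE : E.coeff 0 = v * algebraMap R C t)
    {X : Type u} [AddCommGroup X] [Module R X] (ρ : ↥(WI p J) →ₗ[R] X)
    (hρ : Function.Surjective ρ)
    (hk : ∀ x : ↥(WI p J), ρ x = 0 ↔ ∃ w ∈ WI p J, (x : WittVector p C) = E * w)
    (xs : List R) (i : ℕ) :
    L.len ((KC X ((p : R) :: xs)).H i) = L.len ((KC ↥J (t :: xs)).H i) := by
  have hEn : E.coeff 0 ∈ nonZeroDivisors C := by
    rw [hE]
    exact mul_mem v.isUnit.mem_nonZeroDivisors ht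
  rw [KC_len_Jt L t J fun x _ h => (mem_nonZeroDivisors_iff_left.1 ht) x h]
  -- the map `X → J / t J`
  let g0 : ↥(WI p J) →ₗ[R] Jt R t J := (tJ R t J).mkQ ∘ₗ redJ p hcomp hJ
  have hg0 : ∀ x : ↥(WI p J), g0 x = 0 ↔ ∃ a ∈ J, (x : WittVector p C).coeff 0 =
      E.coeff 0 * a := by
    intro x
    show (tJ R t J).mkQ (redJ p hcomp hJ x) = 0 ↔ _
    rw [Submodule.mkQ_apply, Submodule.Quotient.mk_eq_zero, mem_tJ]
    constructor
    · rintro ⟨y, hy⟩
      refine ⟨(↑v⁻¹ : C) * y, Ideal.mul_mem_left _ _ y.2, ?_⟩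
      have h1 : t • (y : C) = (x : WittVector p C).coeff 0 := congrArg Subtype.val hy
      rw [← h1, hE, Algebra.smul_def]
      have h2 : (v : C) * (↑v⁻¹ : C) = 1 := v.mul_inv
      linear_combination (-(algebraMap R C t) * (y : C)) * h2
    · rintro ⟨a, ha, h⟩
      refine ⟨⟨v * a, Ideal.mul_mem_left _ _ ha⟩, Subtype.ext ?_⟩
      show t • ((v : C) * a) = (x : WittVector p C).coeff 0
      rw [h, hE, Algebra.smul_def]
      ring
  have hle : LinearMap.ker ρ ≤ LinearMap.ker g0 := by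
    intro x hx
    obtain ⟨w, hw, he⟩ := (hk x).1 hx
    refine (hg0 x).2 ⟨w.coeff 0, coeff_zero_mem p hJ hw, ?_⟩
    rw [he]
    exact map_mul (WittVector.constantCoeff (p := p) (R := C)) _ _
  let g : X →ₗ[R] Jt R t J := ((LinearMap.ker ρ).liftQ g0 hle) ∘ₗ
    (ρ.quotKerEquivOfSurjective hρ).symm.toLinearMap
  have hg : ∀ x, g (ρ x) = g0 x := by
    intro x
    have h1 : (ρ.quotKerEquivOfSurjective hρ).symm (ρ x) = (LinearMap.ker ρ).mkQ x := by
      rw [LinearEquiv.symm_apply_eq]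
      rfl
    show ((LinearMap.ker ρ).liftQ g0 hle) ((ρ.quotKerEquivOfSurjective hρ).symm (ρ x)) = _
    rw [h1]
    rfl
  refine KC_len_cons L (p : R) ?_ g ?_ ?_ xs i
  · intro m h
    obtain ⟨x, rfl⟩ := hρ m
    rw [← map_smul] at h
    obtain ⟨w, hw, he⟩ := (hk _).1 h
    have he' : (p : WittVector p C) * (x : WittVector p C) = E * w := by
      rw [← he]
      show _ = (p : R) • (x : WittVector p C)
      rw [Algebra.smul_def, map_natCast]
    obtain ⟨w', hw', he''⟩ := KM.wi_p_reg p hJ hEn hw he'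
    exact (hk x).2 ⟨w', hw', he''⟩
  · intro m
    obtain ⟨y, rfl⟩ := Submodule.mkQ_surjective _ m
    obtain ⟨x, rfl⟩ := redJ_surjective hcomp hJ y
    exact ⟨ρ x, hg x⟩
  · intro m
    obtain ⟨x, rfl⟩ := hρ m
    rw [hg, hg0]
    constructor
    · rintro ⟨a, ha, h⟩
      obtain ⟨w, hw, he⟩ := KM.wi_mod p hJ x.2 ha h
      refine ⟨ρ ⟨w, hw⟩, ?_⟩
      rw [← map_smul, ← sub_eq_zero, ← map_sub]
      refine (hk _).2 ⟨-teichmuller p a, neg_mem (te_mem_WI p ha), ?_⟩
      show (p : R) • w - (x : WittVector p C) = _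
      rw [Algebra.smul_def, map_natCast, he]
      ring
    · rintro ⟨m', hm'⟩
      obtain ⟨w, rfl⟩ := hρ m'
      rw [← map_smul, ← sub_eq_zero, ← map_sub] at hm'
      obtain ⟨w', hw', he⟩ := (hk _).1 hm'
      have he' : (p : R) • (w : WittVector p C) - (x : WittVector p C) = E * w' := he
      rw [Algebra.smul_def, map_natCast] at he'
      refine ⟨-(w'.coeff 0), neg_mem (coeff_zero_mem p hJ hw'), ?_⟩
      have h1 := congrArg (WittVector.constantCoeff (p := p) (R := C)) he'
      rw [map_sub, map_mul, map_mul, map_natCast, CharP.cast_eq_zero, zero_mul, zero_sub] at h1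
      have h2 : -((x : WittVector p C).coeff 0) = E.coeff 0 * w'.coeff 0 := h1
      linear_combination -h2

end W

end Vale.Agent.P177.MN
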