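import Vale.Agent.P177.Nat.Nat
import Vale.Agent.P177.Perf.PerfHull

/-!
# P177, block NAT-A, general form: `C^nat = C[(T/Θ)^(1/p^∞)] ⊆ C[1/Θ]` and perfect ideals

`C` perfect of characteristic `p`, `T, Θ ∈ C`, `Θ ≠ 0`. `NatE p C T Θ` packs the ring; for an ideal
`J` with `SP p J` (closed under `p^m`-th roots of elements of `J^(p^m)`), `J C^nat` has the same
property, `θ J C^nat ⊆ J + T^(1/p^f) J C^nat` and `θ^3 (J ∩ s J C^nat) ⊆ s J` for
`s ∣ T^(1/p^f)`, `θ = Θ^(1/p^f)`.
-/

set_option linter.all false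

namespace Vale.Agent.P177.CN

open Polynomial Vale.Agent.P177.PI

universe u

/-- closed under `p^m`-th roots of elements of `J^(p^m)`. -/
def SP (p : ℕ) [hp : Fact p.Prime] {C : Type u} [CommRing C] [CharP C p] [PerfectRing C p]
    (J : Ideal C) : Prop :=
  ∀ m, ∀ b ∈ J ^ p ^ m, rt p m b ∈ J

/-- the ring `C^nat`. -/
structure NatE (p : ℕ) [hp : Fact p.Prime] (C : Type u) [CommRing C] [CharP C p]
    [PerfectRing C p] (T Θ : C) where
  N : Type u
  [commRing : CommRing N]
  [charP : CharP N p]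
  [perfect : PerfectRing N p]
  [algebra : Algebra C N]
  w : N
  hw : algebraMap C N Θ * w = algebraMap C N T
  reg : ∀ a ∈ nonZeroDivisors C, algebraMap C N a ∈ nonZeroDivisors N
  regΘ : algebraMap C N Θ ∈ nonZeroDivisors N
  ker : ∀ a : C, algebraMap C N a = 0 → ∀ f, rt p f Θ * a = 0
  gen : ∀ (f : ℕ) (x : N), ∃ (n : ℕ) (P : C[X]), x = aeval (rt p (n + f) w) P

attribute [instance] NatE.commRing NatE.charP NatE.perfect NatE.algebra

section ex

variable (p : ℕ) [hp : Fact p.Prime] {C : Type u} [CommRing C] [CharP C p] [PerfectRing C p]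

theorem nonempty_natE (T : C) {Θ : C} (hΘ : Θ ≠ 0) : Nonempty (NatE p C T Θ) := by
  haveI := isReduced_of_perfect p C
  haveI := nontrivial_Lz p hΘ
  haveI := charP_Lz p hΘ
  haveI := perfect_Lz p hΘ
  haveI := isReduced_Lz p Θ
  have hu : IsUnit (algebraMap C (Lz Θ) Θ) := IsLocalization.Away.algebraMap_isUnit Θ
  obtain ⟨v, hv⟩ := hu.exists_right_inv
  set w : Lz Θ := algebraMap C (Lz Θ) T * v with hw
  have hΘw : algebraMap C (Lz Θ) Θ * w = algebraMap C (Lz Θ) T := by
    rw [hw]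
    linear_combination algebraMap C (Lz Θ) T * hv
  have htD : ∀ t ∈ nonZeroDivisors C, algebraMap C (Lz Θ) t ∈ nonZeroDivisors (Lz Θ) :=
    fun t ht => IsLocalization.map_nonZeroDivisors_le (Submonoid.powers Θ) (Lz Θ) ⟨t, ht, rfl⟩
  have hsub : ∀ {a : C}, algebraMap C (Lz Θ) a ∈ nonZeroDivisors (Lz Θ) →
      algebraMap C (Nt p C w) a ∈ nonZeroDivisors (Nt p C w) := by
    intro a ha
    rw [mem_nonZeroDivisors_iff_right] at ha ⊢
    intro x hx
    apply Subtype.ext
    apply ha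
    exact congrArg Subtype.val hx
  haveI hc : CharP (Nt p C w) p := by
    haveI : Nontrivial (Nt p C w) := inferInstance
    rw [CharP.charP_iff_prime_eq_zero hp.out]
    rw [← map_natCast (algebraMap C (Nt p C w)), CharP.cast_eq_zero, map_zero]
  haveI : IsReduced (Nt p C w) :=
    isReduced_of_injective (Nt p C w).val Subtype.val_injective
  haveI hperf : PerfectRing (Nt p C w) p := by
    refine PerfectRing.ofSurjective (Nt p C w) p ?_
    rintro ⟨x, hx⟩
    obtain ⟨y, hy, rfl⟩ := exists_root_Nt p w hx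
    exact ⟨⟨y, hy⟩, Subtype.ext rfl⟩
  have hwm : w ∈ Nt p C w := by
    have := rt_mem_Nt (C := C) p w 0
    have h0 : rt p 0 w = w := by
      have := rt_pow p 0 w
      rwa [pow_zero, pow_one] at this
    rwa [h0] at this
  exact ⟨{
    N := Nt p C w
    w := ⟨w, hwm⟩
    hw := Subtype.ext hΘw
    reg := fun a ha => hsub (htD a ha)
    regΘ := hsub hu.mem_nonZeroDivisors
    ker := fun a ha f => ker_Lz p Θ a (congrArg Subtype.val ha) f
    gen := fun f x => by
      obtain ⟨n, P, h⟩ := exists_poly p w f x.2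
      refine ⟨n, P, Subtype.ext ?_⟩
      have h1 : ((rt p (n + f) (⟨w, hwm⟩ : Nt p C w) : Nt p C w) : Lz Θ) = rt p (n + f) w := by
        apply pow_pow_inj p (n + f)
        rw [rt_pow]
        have h2 := congrArg Subtype.val (rt_pow p (n + f) (⟨w, hwm⟩ : Nt p C w))
        exact h2
      rw [h, ← h1]
      exact (Polynomial.aeval_subalgebra_coe P (Nt p C w) _).symm }⟩

theorem SP.isPerf {J : Ideal C} (hJ : SP p J) : IsPerf p J := by
  intro a ha b hb i hi c hc
  have h1 : a ^ i * b ^ (p - i) ∈ J ^ p ^ 1 := by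
    rw [pow_one]
    have h2 : J ^ p = J ^ i * J ^ (p - i) := by rw [← pow_add, Nat.add_sub_of_le hi]
    rw [h2]
    exact Ideal.mul_mem_mul (Ideal.pow_mem_pow ha i) (Ideal.pow_mem_pow hb _)
  have h3 := hJ 1 _ h1
  have h4 : rt p 1 (a ^ i * b ^ (p - i)) = c := by
    apply pow_pow_inj p 1
    rw [rt_pow, pow_one, hc]
  rwa [h4] at h3

theorem SP_top : SP p (⊤ : Ideal C) := fun _ _ _ => Submodule.mem_top

theorem SP.inf {I J : Ideal C} (hI : SP p I) (hJ : SP p J) : SP p (I ⊓ J) :=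
  fun m b hb => ⟨hI m b (Ideal.pow_right_mono inf_le_left _ hb),
    hJ m b (Ideal.pow_right_mono inf_le_right _ hb)⟩

end ex

section thms

variable {p : ℕ} [hp : Fact p.Prime] {C : Type u} [CommRing C] [CharP C p] [PerfectRing C p]
  {T Θ : C} (E : NatE p C T Θ)

theorem NatE.hrt (e : ℕ) :
    algebraMap C E.N (rt p e Θ) * rt p e E.w = algebraMap C E.N (rt p e T) := by
  rw [map_rt, ← rt_mul, E.hw, map_rt]

/-- elements of `J C^nat` as polynomials with coefficients in `J`. -/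
theorem NatE.genJ (J : Ideal C) (f : ℕ) {x : E.N} (hx : x ∈ J.map (algebraMap C E.N)) :
    ∃ (n : ℕ) (P : C[X]), (∀ i, P.coeff i ∈ J) ∧ x = aeval (rt p (n + f) E.w) P := by
  have up : ∀ n m : ℕ, ∀ P : C[X], n ≤ m → ∃ Q : C[X],
      aeval (rt p (n + f) E.w) P = aeval (rt p (m + f) E.w) Q ∧
        ((∀ i, P.coeff i ∈ J) → ∀ i, Q.coeff i ∈ J) := by
    intro n m P h
    obtain ⟨k, rfl⟩ := Nat.exists_eq_add_of_le h
    refine ⟨expand C (p ^ k) P, ?_, ?_⟩
    · rw [expand_aeval]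
      have : rt p (n + k + f) E.w = rt p (k + (n + f)) E.w := by congr 1; omega
      rw [this, rt_add_pow]
    · intro hP i
      rw [coeff_expand (Nat.pow_pos hp.out.pos)]
      split_ifs
      · exact hP _
      · exact zero_mem _
  refine Submodule.span_induction (p := fun x _ => ∃ (n : ℕ) (P : C[X]),
    (∀ i, P.coeff i ∈ J) ∧ x = aeval (rt p (n + f) E.w) P) ?_ ?_ ?_ ?_ hx
  · rintro _ ⟨a, ha, rfl⟩
    refine ⟨0, Polynomial.C a, fun i => ?_, by rw [aeval_C]⟩
    rw [coeff_C]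
    split_ifs
    · exact ha
    · exact zero_mem _
  · exact ⟨0, 0, fun i => by rw [coeff_zero]; exact zero_mem _, by rw [map_zero]⟩
  · rintro x y _ _ ⟨n, P, hP, rfl⟩ ⟨m, Q, hQ, rfl⟩
    obtain ⟨P', h1, h1'⟩ := up n (n + m) P (by omega)
    obtain ⟨Q', h2, h2'⟩ := up m (n + m) Q (by omega)
    refine ⟨n + m, P' + Q', fun i => ?_, by rw [map_add, h1, h2]⟩
    rw [coeff_add]
    exact add_mem (h1' hP i) (h2' hQ i)
  · rintro r y _ ⟨m, Q, hQ, rfl⟩
    obtain ⟨n, P, rfl⟩ := E.gen f r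
    obtain ⟨P', h1, _⟩ := up n (n + m) P (by omega)
    obtain ⟨Q', h2, h2'⟩ := up m (n + m) Q (by omega)
    refine ⟨n + m, P' * Q', fun i => ?_, by rw [smul_eq_mul, map_mul, h1, h2]⟩
    rw [coeff_mul]
    exact Ideal.sum_mem _ fun x _ => Ideal.mul_mem_left _ _ (h2' hQ _)

/-- `J C^nat` is again closed under roots. -/
theorem NatE.sp_map {J : Ideal C} (hJ : SP p J) : SP p (J.map (algebraMap C E.N)) := by
  intro m b hb
  rw [← Ideal.map_pow] at hb
  refine Submodule.span_induction (p := fun b _ => rt p m b ∈ J.map (algebraMap C E.N))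
    ?_ ?_ ?_ ?_ hb
  · rintro _ ⟨a, ha, rfl⟩
    beta_reduce
    rw [← map_rt]
    exact Ideal.mem_map_of_mem _ (hJ m a ha)
  · have : rt p m (0 : E.N) = 0 := by
      apply pow_pow_inj p m
      rw [rt_pow, zero_pow (pow_ne_zero _ hp.out.ne_zero)]
    rw [this]
    exact zero_mem _
  · intro x y _ _ hx hy
    have : rt p m (x + y) = rt p m x + rt p m y := by
      apply pow_pow_inj p m
      rw [rt_pow, add_pow_char_pow, rt_pow, rt_pow]
    rw [this]
    exact add_mem hx hy
  · intro r x _ hx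
    rw [smul_eq_mul, rt_mul]
    exact Ideal.mul_mem_left _ _ hx

/-- **(N1J)** -/
theorem NatE.n1J (J : Ideal C) (f : ℕ) {x : E.N} (hx : x ∈ J.map (algebraMap C E.N)) :
    ∃ a ∈ J, ∃ y ∈ J.map (algebraMap C E.N),
      algebraMap C E.N (rt p f Θ) * x = algebraMap C E.N a + algebraMap C E.N (rt p f T) * y := by
  obtain ⟨n, P, hPJ, rfl⟩ := E.genJ J f hx
  set v := rt p (n + f) E.w with hv
  have hvK : v ^ p ^ n = rt p f E.w := rt_add_pow p f n E.w
  have hTK : rt p (n + f) Θ ^ p ^ n = rt p f Θ := rt_add_pow p f n Θ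
  have hi : ∀ i : ℕ, ∃ a ∈ J, ∃ y ∈ J.map (algebraMap C E.N),
      algebraMap C E.N (rt p f Θ) * (P.coeff i • v ^ i) =
        algebraMap C E.N a + algebraMap C E.N (rt p f T) * y := by
    intro i
    rw [Algebra.smul_def]
    rcases le_or_gt (p ^ n) i with h | h
    · obtain ⟨j, hj⟩ := Nat.exists_eq_add_of_le h
      refine ⟨0, zero_mem _, algebraMap C E.N (P.coeff i) * v ^ j,
        Ideal.mul_mem_right _ _ (Ideal.mem_map_of_mem _ (hPJ i)), ?_⟩
      rw [map_zero, zero_add, ← E.hrt f, hj, pow_add, hvK]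
      ring
    · obtain ⟨j, hj⟩ := Nat.exists_eq_add_of_le h.le
      refine ⟨P.coeff i * (rt p (n + f) Θ ^ j * rt p (n + f) T ^ i),
        Ideal.mul_mem_right _ _ (hPJ i), 0, zero_mem _, ?_⟩
      rw [mul_zero, add_zero, ← hTK, hj, map_mul, map_mul, map_pow, map_pow, map_pow,
        ← E.hrt (n + f), pow_add]
      ring
  choose a haJ y hy h using hi
  refine ⟨∑ i ∈ Finset.range (P.natDegree + 1), a i, Ideal.sum_mem _ fun i _ => haJ i,
    ∑ i ∈ Finset.range (P.natDegree + 1), y i, Ideal.sum_mem _ fun i _ => hy i, ?_⟩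
  rw [aeval_eq_sum_range, Finset.mul_sum, Finset.sum_congr rfl fun i _ => h i,
    Finset.sum_add_distrib, map_sum, Finset.mul_sum]

/-- **(N2J)** -/
theorem NatE.n2J {J : Ideal C} (hJ : SP p J) (f : ℕ) (s : C) (hs : s ∣ rt p f T) {x : C}
    (hx : x ∈ J) {y : E.N} (hy : y ∈ J.map (algebraMap C E.N))
    (hxy : algebraMap C E.N x = algebraMap C E.N s * y) :
    ∃ x' ∈ J, rt p f Θ ^ 3 * x = s * x' := by
  obtain ⟨n, P, hPJ, hP⟩ := E.genJ J f hy
  set e := n + f with he
  set v := rt p e E.w with hv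
  set M := P.natDegree with hM
  set K := p ^ n with hK
  have hvK : v ^ K = rt p f E.w := rt_add_pow p f n E.w
  obtain ⟨τ', hτ'⟩ := hs
  set z : E.N := algebraMap C E.N (rt p f Θ) * y with hz
  -- the modules
  set NN : ℕ → Submodule C E.N := fun m =>
    Submodule.span C {u | ∃ j ≤ M + K, ∃ a ∈ J ^ m, u = algebraMap C E.N a * v ^ j} with hNN
  have hmem : ∀ m j, j ≤ M + K → ∀ a ∈ J ^ m, algebraMap C E.N a * v ^ j ∈ NN m :=
    fun m j hj a ha => Submodule.subset_span ⟨j, hj, a, ha, rfl⟩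
  have hzNN : ∀ m, ∀ s ∈ NN m, z * s ∈ NN (m + 1) := by
    intro m s' hs'
    refine Submodule.span_induction (p := fun s _ => z * s ∈ NN (m + 1)) ?_ ?_ ?_ ?_ hs'
    · rintro _ ⟨j, hj, a, ha, rfl⟩
      rcases le_or_gt K j with h | h
      · obtain ⟨i, rfl⟩ := Nat.exists_eq_add_of_le h
        have h1 : z * (algebraMap C E.N a * v ^ (K + i)) =
            algebraMap C E.N (τ' * (x * a)) * v ^ i := by
          rw [map_mul, map_mul, hxy, pow_add, hvK, hz]
          have h2 := E.hrt f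
          rw [hτ', map_mul] at h2
          linear_combination (y * v ^ i * algebraMap C E.N a) * h2
        rw [h1]
        refine hmem _ _ (by omega) _ (Ideal.mul_mem_left _ _ ?_)
        rw [pow_succ']
        exact Ideal.mul_mem_mul hx ha
      · have h1 : z * (algebraMap C E.N a * v ^ j) = ∑ i ∈ Finset.range (M + 1),
            algebraMap C E.N (rt p f Θ * (P.coeff i * a)) * v ^ (i + j) := by
          rw [hz, hP, aeval_eq_sum_range, Finset.mul_sum, Finset.sum_mul]
          refine Finset.sum_congr rfl fun i _ => ?_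
          rw [Algebra.smul_def, map_mul, map_mul, pow_add]
          ring
        rw [h1]
        refine Submodule.sum_mem _ fun i hi => hmem _ _ ?_ _ (Ideal.mul_mem_left _ _ ?_)
        · rw [Finset.mem_range] at hi
          omega
        · rw [pow_succ']
          exact Ideal.mul_mem_mul (hPJ i) ha
    · rw [mul_zero]; exact zero_mem _
    · intro a b _ _ ha hb
      rw [mul_add]; exact add_mem ha hb
    · intro a b _ hb
      rw [mul_smul_comm]; exact Submodule.smul_mem _ _ hb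
  have hzm : ∀ m, z ^ m ∈ NN m := by
    intro m
    induction m with
    | zero =>
      have := hmem 0 0 (by omega) 1 (by rw [pow_zero, Ideal.one_eq_top]; trivial)
      rw [map_one, one_mul, pow_zero] at this
      rw [pow_zero]
      exact this
    | succ m ih => rw [pow_succ']; exact hzNN _ _ ih
  have hbar : ∀ m, ∀ s ∈ NN m, ∃ b ∈ J ^ m,
      algebraMap C E.N (rt p e Θ) ^ (M + K) * s = algebraMap C E.N b := by
    intro m s' hs'
    refine Submodule.span_induction (p := fun s _ => ∃ b ∈ J ^ m,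
      algebraMap C E.N (rt p e Θ) ^ (M + K) * s = algebraMap C E.N b) ?_ ?_ ?_ ?_ hs'
    · rintro _ ⟨j, hj, a, ha, rfl⟩
      obtain ⟨i, hi⟩ := Nat.exists_eq_add_of_le hj
      refine ⟨rt p e Θ ^ i * rt p e T ^ j * a, Ideal.mul_mem_left _ _ ha, ?_⟩
      rw [hi, map_mul, map_mul, map_pow, map_pow, ← E.hrt e, pow_add]
      ring
    · exact ⟨0, zero_mem _, by rw [mul_zero, map_zero]⟩
    · rintro a b _ _ ⟨a', ha', ha⟩ ⟨b', hb', hb⟩
      exact ⟨a' + b', add_mem ha' hb', by rw [mul_add, ha, hb, map_add]⟩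
    · rintro a b _ ⟨b', hb', hb⟩
      exact ⟨a * b', Ideal.mul_mem_left _ _ hb', by
        rw [mul_smul_comm, hb, Algebra.smul_def, map_mul]⟩
  -- the roots
  obtain ⟨m, hm⟩ : ∃ m, M + K ≤ p ^ m := ⟨M + K, (Nat.lt_pow_self hp.out.one_lt).le⟩
  obtain ⟨b, hbJ, hb⟩ := hbar _ _ (hzm (p ^ m))
  have hroot : algebraMap C E.N (rt p (m + e) Θ ^ (M + K)) * z =
      algebraMap C E.N (rt p m b) := by
    apply pow_pow_inj p m
    rw [← map_pow, rt_pow, ← hb, mul_pow, ← map_pow, ← pow_mul, mul_comm (M + K), pow_mul,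
      rt_add_pow, map_pow]
  have hθ : rt p (m + e) Θ ^ p ^ (m + n) = rt p f Θ := by
    have := rt_add_pow p f (m + n) Θ
    rw [← this, he, add_assoc]
  obtain ⟨i, hi⟩ : ∃ i, p ^ (m + n) = (M + K) + i := by
    refine Nat.exists_eq_add_of_le (hm.trans ?_)
    exact Nat.pow_le_pow_right hp.out.pos (by omega)
  set x' : C := rt p (m + e) Θ ^ i * rt p m b with hx'
  have hx'J : x' ∈ J := Ideal.mul_mem_left _ _ (hJ m b hbJ)
  have h2 : algebraMap C E.N (rt p f Θ) * z = algebraMap C E.N x' := by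
    rw [hx', map_mul, ← hroot, ← hθ, hi, pow_add, map_mul]
    ring
  have h3 : algebraMap C E.N (rt p f Θ ^ 2 * x - s * x') = 0 := by
    rw [map_sub, map_mul (algebraMap C E.N) s, ← h2, map_mul, map_pow, hxy, hz]
    ring
  have h4 := E.ker _ h3 f
  exact ⟨rt p f Θ * x', Ideal.mul_mem_left _ _ hx'J, by linear_combination h4⟩

end thms

end Vale.Agent.P177.CN
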