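import Vale.Agent.P177.Nat.Exact

/-!
P177, (N6): the equation `E([c]) = p - G` with `p - G = (p - [t]) z + p ^ M w` has `z` a unit, and
`E([c])`, `p` is a regular sequence with `(E([c]), p ^ N) = (p - [t], p ^ N)` on `WI J`.
-/

namespace Vale.Agent.P177.NatC

open Vale.Agent.P177.Perf Vale.Agent.P177.PI WittVector

universe u v

variable (p : ℕ) [hp : Fact p.Prime] {C : Type u} [CommRing C] [CharP C p] [PerfectRing C p]

theorem isUnit_of_coeff_zero {z : WittVector p C} (h : IsUnit (z.coeff 0)) : IsUnit z := by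
  have h1 : IsUnit (teichmuller p (z.coeff 0)) := h.map (teichmuller p)
  have h2 : (z - teichmuller p (z.coeff 0)).coeff 0 = 0 := by
    have h3 : WittVector.constantCoeff (z - teichmuller p (z.coeff 0)) = 0 := by
      rw [map_sub]
      change z.coeff 0 - (teichmuller p (z.coeff 0)).coeff 0 = 0
      rw [teichmuller_coeff_zero, sub_self]
    exact h3
  rw [← WittVector.mem_span_p_iff_coeff_zero_eq_zero] at h2
  have h4 : Ideal.span {(p : WittVector p C)} ≤ Ideal.jacobson ⊥ :=
    IsAdicComplete.le_jacobson_bot _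
  obtain ⟨u, hu⟩ := h1
  have h5 := Ideal.mem_jacobson_bot.1 (h4 h2) (↑u⁻¹ : WittVector p C)
  have h6 : (z - teichmuller p (z.coeff 0)) * (↑u⁻¹ : WittVector p C) + 1 =
      z * (↑u⁻¹ : WittVector p C) := by
    rw [← hu, sub_mul, Units.mul_inv]; ring
  rw [h6] at h5
  exact (Units.isUnit_mul_units _ _).1 h5

section unit

variable {C' : Type v} [CommRing C'] [CharP C' p] [PerfectRing C' p] (f : C →+* C')

/-- the leading coefficient of `z`. -/
theorem exists_coeff_z {Jc : Ideal C} (hJc : IsPerf p Jc) {G : WittVector p C}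
    (hG : G ∈ WI p Jc) {t : C'} {M : ℕ} (hM : 2 ≤ M) {z w : WittVector p C'}
    (h : (p : WittVector p C') - WittVector.map f G =
      ((p : WittVector p C') - teichmuller p t) * z + (p : WittVector p C') ^ M * w) :
    f (G.coeff 0) = t * z.coeff 0 ∧ ∃ a ∈ Jc, ∃ y, z.coeff 0 = 1 - f a + t * y := by
  obtain ⟨N, rfl⟩ : ∃ N, M = N + 2 := ⟨M - 2, by omega⟩
  obtain ⟨hG0, G1, hG1, hGe⟩ := exists_of_mem_WI p hJc hG
  obtain ⟨z1, hz1⟩ : ∃ z1, z = teichmuller p (z.coeff 0) + (p : WittVector p C') * z1 := by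
    have h1 : (z - teichmuller p (z.coeff 0)).coeff 0 = 0 := by
      have h2 : WittVector.constantCoeff (z - teichmuller p (z.coeff 0)) = 0 := by
        rw [map_sub]
        change z.coeff 0 - (teichmuller p (z.coeff 0)).coeff 0 = 0
        rw [teichmuller_coeff_zero, sub_self]
      exact h2
    rw [← WittVector.mem_span_p_iff_coeff_zero_eq_zero, Ideal.mem_span_singleton'] at h1
    obtain ⟨y, hy⟩ := h1
    exact ⟨y, by linear_combination -hy⟩
  have hW : WittVector.map f G = teichmuller p (f (G.coeff 0)) +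
      (p : WittVector p C') * WittVector.map f G1 := by
    have h1 := congrArg (WittVector.map f) hGe
    rwa [map_add, map_mul, map_natCast, map_teichmuller] at h1
  have hcc : ∀ x : WittVector p C', WittVector.constantCoeff x = x.coeff 0 := fun _ => rfl
  have h0 : f (G.coeff 0) = t * z.coeff 0 := by
    have h1 := congrArg WittVector.constantCoeff h
    rw [map_sub, map_add, map_mul, map_mul, map_sub, map_pow, map_natCast, CharP.cast_eq_zero,
      zero_pow (by omega), zero_mul, add_zero, zero_sub, zero_sub, hcc, hcc, hcc, map_coeff,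
      teichmuller_coeff_zero] at h1
    linear_combination -h1
  refine ⟨h0, G1.coeff 0, coeff_zero_mem p hJc hG1, z1.coeff 0, ?_⟩
  have h2 : (p : WittVector p C') * (1 - WittVector.map f G1) = p * (z - teichmuller p t * z1 +
      p ^ (N + 1) * w) := by
    have h3 : teichmuller p t * teichmuller p (z.coeff 0) = teichmuller p (f (G.coeff 0)) := by
      rw [h0, map_mul]
    have h4 : teichmuller p t * z = teichmuller p t * teichmuller p (z.coeff 0) +
        p * (teichmuller p t * z1) := by
      conv_lhs => rw [hz1]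
      ring
    rw [hW] at h
    linear_combination h - h4 - h3
  have h3 : 1 - WittVector.map f G1 = z - teichmuller p t * z1 + p ^ (N + 1) * w := by
    have h5 : (1 - WittVector.map f G1 - (z - teichmuller p t * z1 + p ^ (N + 1) * w)) *
        (p : WittVector p C') = 0 := by
      linear_combination h2
    exact sub_eq_zero.1 (WittVector.eq_zero_of_p_mul_eq_zero _ h5)
  have h4 := congrArg WittVector.constantCoeff h3
  rw [map_sub, map_add, map_sub, map_mul, map_mul, map_pow, map_natCast, CharP.cast_eq_zero,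
    zero_pow (Nat.succ_ne_zero N), zero_mul, add_zero, map_one, hcc, hcc, hcc, hcc, map_coeff,
    teichmuller_coeff_zero] at h4
  linear_combination -h4

/-- **(N6)**: `z` is a unit. -/
theorem isUnit_z {Jc : Ideal C} (hJc : IsPerf p Jc) (hrad : Jc ≤ Ideal.jacobson ⊥)
    {G : WittVector p C} (hG : G ∈ WI p Jc) {t : C'} (ht : t ∈ Ideal.jacobson (⊥ : Ideal C'))
    {M : ℕ} (hM : 2 ≤ M) {z w : WittVector p C'}
    (h : (p : WittVector p C') - WittVector.map f G =
      ((p : WittVector p C') - teichmuller p t) * z + (p : WittVector p C') ^ M * w) :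
    IsUnit z := by
  obtain ⟨-, a, ha, y, he⟩ := exists_coeff_z p f hJc hG hM h
  apply isUnit_of_coeff_zero
  rw [he]
  have h1 : IsUnit (1 - a) := by
    have := Ideal.mem_jacobson_bot.1 (hrad ha) (-1)
    convert this using 1
    ring
  obtain ⟨u, hu⟩ := h1.map f
  rw [map_sub, map_one] at hu
  have h2 := Ideal.mem_jacobson_bot.1 ht (y * ↑u⁻¹)
  have h3 : 1 - f a + t * y = ↑u * (t * (y * ↑u⁻¹) + 1) := by
    rw [← hu]
    have : (u : C') * ↑u⁻¹ = 1 := Units.mul_inv u
    linear_combination -(t * y) * this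
  rw [h3]
  exact (Units.isUnit u).mul h2

end unit

section reg

variable {t : C} {E z w : WittVector p C} {M : ℕ}

omit [CharP C p] [PerfectRing C p] in
/-- `(E, p ^ N) = (p - [t], p ^ N)` on `WI J`. -/
theorem mem_E_iff {J : Ideal C} (hz : IsUnit z)
    (hE : E = ((p : WittVector p C) - teichmuller p t) * z + (p : WittVector p C) ^ M * w)
    {N : ℕ} (hN : N ≤ M) (x : WittVector p C) :
    (∃ a ∈ WI p J, ∃ b ∈ WI p J, x = E * a + (p : WittVector p C) ^ N * b) ↔
      ∃ a ∈ WI p J, ∃ b ∈ WI p J, x = ((p : WittVector p C) - teichmuller p t) * a +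
        (p : WittVector p C) ^ N * b := by
  obtain ⟨K, rfl⟩ : ∃ K, M = N + K := ⟨M - N, by omega⟩
  obtain ⟨u, rfl⟩ := hz
  constructor
  · rintro ⟨a, ha, b, hb, rfl⟩
    refine ⟨u * a, Ideal.mul_mem_left _ _ ha, p ^ K * w * a + b,
      add_mem (Ideal.mul_mem_left _ _ ha) hb, ?_⟩
    rw [hE]; ring
  · rintro ⟨a, ha, b, hb, rfl⟩
    refine ⟨↑u⁻¹ * a, Ideal.mul_mem_left _ _ ha, b - p ^ K * w * (↑u⁻¹ * a),
      sub_mem hb (Ideal.mul_mem_left _ _ (Ideal.mul_mem_left _ _ ha)), ?_⟩
    rw [hE]
    have : (u : WittVector p C) * ↑u⁻¹ = 1 := Units.mul_inv u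
    linear_combination -((p - teichmuller p t) * a) * this

/-- `p` is regular on `WI J / E`. -/
theorem exists_of_p_mul_E {J : Ideal C} (hJ : IsPerf p J) (ht : t ∈ nonZeroDivisors C)
    (hz : IsUnit z) (hM : 1 ≤ M)
    (hE : E = ((p : WittVector p C) - teichmuller p t) * z + (p : WittVector p C) ^ M * w)
    {x a : WittVector p C} (ha : a ∈ WI p J) (h : (p : WittVector p C) * x = E * a) :
    ∃ a' ∈ WI p J, a = p * a' ∧ x = E * a' := by
  have hcc : ∀ x : WittVector p C, WittVector.constantCoeff x = x.coeff 0 := fun _ => rfl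
  have h0 : a.coeff 0 = 0 := by
    have h1 := congrArg WittVector.constantCoeff h
    rw [hE, map_mul, map_mul, map_add, map_mul, map_mul, map_sub, map_pow, map_natCast,
      CharP.cast_eq_zero, zero_mul, zero_pow (by omega), zero_mul, add_zero, zero_sub, hcc, hcc,
      hcc, teichmuller_coeff_zero] at h1
    have h2 : IsUnit (z.coeff 0) := hz.map (WittVector.constantCoeff (p := p) (R := C))
    have h3 : t * (z.coeff 0 * a.coeff 0) = 0 := by linear_combination h1
    rw [mul_left_mem_nonZeroDivisors_eq_zero_iff ht] at h3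
    exact (h2.mul_right_eq_zero).1 h3
  obtain ⟨a', ha', he⟩ := exists_p_mul_of_coeff_zero p hJ ha h0
  refine ⟨a', ha', he, ?_⟩
  have h5 : (x - E * a') * (p : WittVector p C) = 0 := by
    rw [he] at h
    linear_combination h
  exact sub_eq_zero.1 (WittVector.eq_zero_of_p_mul_eq_zero _ h5)

/-- `E` is regular. -/
theorem eq_zero_of_E_mul (ht : t ∈ nonZeroDivisors C) (hz : IsUnit z) (hM : 1 ≤ M)
    (hE : E = ((p : WittVector p C) - teichmuller p t) * z + (p : WittVector p C) ^ M * w)
    {a : WittVector p C} (h : E * a = 0) : a = 0 := by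
  have key : ∀ n, ∀ a : WittVector p C, E * a = 0 → (p : WittVector p C) ^ n ∣ a := by
    intro n
    induction n with
    | zero => intro a _; simp
    | succ n ih =>
      intro a ha
      have hJ : IsPerf p (⊤ : Ideal C) := fun _ _ _ _ _ _ _ _ => Submodule.mem_top
      have haT : a ∈ WI p (⊤ : Ideal C) := by
        rw [mem_WI_iff_coeff p hJ]
        intro k
        exact ⟨rt p k (a.coeff k), Submodule.mem_top, (rt_pow p k _).symm⟩
      obtain ⟨a', -, h1, h2⟩ := exists_of_p_mul_E p hJ ht hz hM hE (x := 0) haT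
        (by rw [mul_zero, ha])
      obtain ⟨b, hb⟩ := ih a' h2.symm
      exact ⟨b, by rw [h1, hb]; ring⟩
  ext n
  have h1 := key (n + 1) a h
  rw [← sub_zero a] at h1
  exact P202.Mix.coeff_eq_of_dvd_sub h1 (Nat.lt_succ_self n)

end reg

end Vale.Agent.P177.NatC
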