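import Vale.Agent.P177.Perf.KLes
import Vale.Agent.P177.Perf.KzComp

/-!
P177, GD: the lengths of Koszul homology are invariant under maps with null kernel and cokernel,
change of the ring of operators, reduction by regular elements.
-/

namespace Vale.Agent.P177.MN

open Vale.Agent.P177.KG Vale.Agent.P202.Mix
open scoped ENNReal

universe u

section Null

variable {R : Type u} [CommRing R] (L : ALen R) {M N : Type u} [AddCommGroup M] [Module R M]
  [AddCommGroup N] [Module R N]

theorem pt_len_zero (M : Type u) [AddCommGroup M] [Module R M] (h0 : L.len M = 0) (i : ℕ) :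
    L.len ((KC M ([] : List R)).H i) = 0 := by
  cases i with
  | zero =>
    refine le_antisymm ?_ zero_le
    rw [← h0]
    have h1 : L.len ((KC M ([] : List R)).H 0) ≤ L.len ↥((KC M ([] : List R)).Z 0) :=
      len_le_of_surj L ((KC M ([] : List R)).cl 0) (Submodule.mkQ_surjective _)
    refine h1.trans ?_
    exact len_sub_le L (M := M) ((KC M ([] : List R)).Z 0)
  | succ i =>
    have : Subsingleton ((KC M ([] : List R)).H (i + 1)) := KC_H_subsingleton M [] (by simp)
    exact len_subsingleton L

/-- Koszul homology of null modules is null. -/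
theorem KC_null (h0 : L.len M = 0) (xs : List R) (i : ℕ) : L.len ((KC M xs).H i) = 0 := by
  refine le_antisymm ?_ zero_le
  have h1 := (kfam M).len_append_le L xs [] i
  rw [List.append_nil] at h1
  refine h1.trans ?_
  refine le_of_eq ?_
  unfold KFam.bsum
  refine Finset.sum_eq_zero fun jq _ => ?_
  exact mul_eq_zero.2 (Or.inr (pt_len_zero L M h0 jq.2))

theorem KC_len_eq_of_inj (f : M →ₗ[R] N) (hf : Function.Injective f)
    (hc : L.len (N ⧸ LinearMap.range f) = 0) (xs : List R) (i : ℕ) :
    L.len ((KC M xs).H i) = L.len ((KC N xs).H i) := by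
  have hg : Function.Surjective (LinearMap.range f).mkQ := Submodule.mkQ_surjective _
  have hfg : Function.Exact f (LinearMap.range f).mkQ := by
    rw [LinearMap.exact_iff, Submodule.ker_mkQ]
  refine le_antisymm ?_ ?_
  · have h1 := KC_len_left L hf hg hfg xs i
    rwa [KC_null L hc, zero_add] at h1
  · have h1 := KC_len_mid L hf hg hfg xs i
    rwa [KC_null L hc, add_zero] at h1

theorem KC_len_eq_of_surj (f : M →ₗ[R] N) (hf : Function.Surjective f)
    (hk : L.len (LinearMap.ker f) = 0) (xs : List R) (i : ℕ) :
    L.len ((KC M xs).H i) = L.len ((KC N xs).H i) := by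
  have hi : Function.Injective (LinearMap.ker f).subtype := Submodule.injective_subtype _
  have hfg : Function.Exact (LinearMap.ker f).subtype f := by
    rw [LinearMap.exact_iff, Submodule.range_subtype]
  refine le_antisymm ?_ ?_
  · have h1 := KC_len_mid L hi hf hfg xs i
    rwa [KC_null L hk, zero_add] at h1
  · cases i with
    | zero => exact KC_len_right_zero L hi hf hfg xs
    | succ i =>
      have h1 := KC_len_right L hi hf hfg xs i
      rwa [KC_null L hk, add_zero] at h1

/-- **invariance under maps with null kernel and cokernel.** -/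
theorem KC_len_eq_of_null (f : M →ₗ[R] N) (hk : L.len (LinearMap.ker f) = 0)
    (hc : L.len (N ⧸ LinearMap.range f) = 0) (xs : List R) (i : ℕ) :
    L.len ((KC M xs).H i) = L.len ((KC N xs).H i) := by
  rw [KC_len_eq_of_surj L f.rangeRestrict f.surjective_rangeRestrict
    (by rw [LinearMap.ker_rangeRestrict]; exact hk) xs i]
  refine KC_len_eq_of_inj L (LinearMap.range f).subtype (Submodule.injective_subtype _) ?_ xs i
  rw [Submodule.range_subtype]
  exact hc

/-- a linear equivalence. -/
theorem KC_len_congr (e : M ≃ₗ[R] N) (xs : List R) (i : ℕ) :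
    L.len ((KC M xs).H i) = L.len ((KC N xs).H i) := by
  refine KC_len_eq_of_null L (e : M →ₗ[R] N) ?_ ?_ xs i
  · have : Subsingleton (LinearMap.ker (e : M →ₗ[R] N)) := by
      rw [LinearEquiv.ker]; infer_instance
    exact len_subsingleton L
  · have : Subsingleton (N ⧸ LinearMap.range (e : M →ₗ[R] N)) := by
      rw [LinearEquiv.range]; infer_instance
    exact len_subsingleton L

end Null

section Res

variable {R C C' : Type u} [CommRing R] [CommRing C] [CommRing C'] [Algebra R C] [Algebra R C']
  {V : Type u} [AddCommGroup V] [Module R V] [Module C V] [IsScalarTower R C V]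
  [Module C' V] [IsScalarTower R C' V] {n : ℕ}

/-- two rings of operators: only the operators matter. -/
theorem KC_len_ops (L : ALen R) (y : Fin n → C) (y' : Fin n → C')
    (h : ∀ l (v : V), y l • v = y' l • v) (i : ℕ) :
    (L.res C).len ((KC V (List.ofFn y)).H i) = (L.res C').len ((KC V (List.ofFn y')).H i) := by
  let T : Fin n → V →ₗ[R] V := fun l => LinearMap.restrictScalars R (LinearMap.lsmul C V (y l))
  have h1 := len_KH_eq L T y (fun l v => rfl) i
  have h2 := len_KH_eq L T y' (fun l v => h l v) i
  rw [← h1, h2]

/-- restriction of scalars of the operators. -/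
theorem KC_len_res (L : ALen R) (x : Fin n → R) (i : ℕ) :
    (L.res C).len ((KC V (List.ofFn fun l => algebraMap R C (x l))).H i) =
      L.len ((KC V (List.ofFn x)).H i) := by
  rw [KC_len_ops (C' := R) L (fun l => algebraMap R C (x l)) x
    (fun l v => algebraMap_smul C (x l) v) i]
  exact ALen.res_len L _

end Res

section Reg

variable {R : Type u} [CommRing R] (L : ALen R) {M K : Type u} [AddCommGroup M] [Module R M]
  [AddCommGroup K] [Module R K]

/-- reduction by a regular element. -/
theorem KC_len_cons (x : R) (hx : ∀ m : M, x • m = 0 → m = 0) (g : M →ₗ[R] K)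
    (hg : Function.Surjective g) (hk : ∀ m, g m = 0 ↔ ∃ m', x • m' = m) (xs : List R) (i : ℕ) :
    L.len ((KC M (x :: xs)).H i) = L.len ((KC K xs).H i) :=
  len_congr L (KC_cons_equiv x hx g hg hk xs i)

end Reg

end Vale.Agent.P177.MN
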