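import Vale.Agent.P177.Nat.NatZ

/-!
# P177, block NAT-Z: localisation of `C^nat` at `1 + t C^nat`
-/

set_option linter.all false

namespace Vale.Agent.P177.CN

open Polynomial Vale.Agent.P177.PI

universe u

section loc

variable (p : ℕ) [hp : Fact p.Prime] {N : Type u} [CommRing N] [CharP N p] [PerfectRing N p]

/-- the monoid `1 + t N`. -/
def oneAdd (t : N) : Submonoid N where
  carrier := {m | ∃ b, m = 1 + t * b}
  one_mem' := ⟨0, by ring⟩
  mul_mem' := by
    rintro _ _ ⟨a, rfl⟩ ⟨b, rfl⟩
    exact ⟨a + b + t * a * b, by ring⟩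

include p in
theorem isReduced_locM (M : Submonoid N) : IsReduced (Localization M) := by
  haveI := isReduced_of_perfect p N
  exact isReduced_localizationPreserves M (Localization M) inferInstance

theorem charP_locM (M : Submonoid N) (hM : (0 : N) ∉ M) : CharP (Localization M) p := by
  haveI : Nontrivial (Localization M) := by
    refine ⟨⟨0, 1, fun h => hM ?_⟩⟩
    have h1 : algebraMap N (Localization M) 1 = 0 := by rw [map_one]; exact h.symm
    rw [IsLocalization.map_eq_zero_iff M] at h1
    obtain ⟨m, hm⟩ := h1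
    rw [mul_one] at hm
    rw [← hm]
    exact m.2
  rw [CharP.charP_iff_prime_eq_zero hp.out]
  rw [← map_natCast (algebraMap N (Localization M)), CharP.cast_eq_zero, map_zero]

theorem perfect_locM (M : Submonoid N) (hM : (0 : N) ∉ M) :
    haveI := charP_locM p M hM
    PerfectRing (Localization M) p := by
  haveI := charP_locM p M hM
  haveI := isReduced_locM p M
  refine PerfectRing.ofSurjective (Localization M) p ?_
  intro x
  obtain ⟨⟨a, s⟩, h⟩ := IsLocalization.surj M x
  have hu : IsUnit (algebraMap N (Localization M) s) := IsLocalization.map_units _ s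
  obtain ⟨v, hv⟩ := hu.exists_right_inv
  obtain ⟨q, hq⟩ : ∃ q, p = q + 1 := ⟨p - 1, by have := hp.out.pos; omega⟩
  have hr : ∀ b : N, rt p 1 b ^ p = b := fun b => by
    have := rt_pow p 1 b
    rwa [pow_one] at this
  refine ⟨algebraMap N (Localization M) (rt p 1 (a * s ^ q)) * v, ?_⟩
  rw [frobenius_def, mul_pow, ← map_pow, hr, map_mul]
  have h' : x * algebraMap N (Localization M) s = algebraMap N (Localization M) a := h
  rw [← h', map_pow]
  have h3 : algebraMap N (Localization M) s * algebraMap N (Localization M) s ^ q * v ^ p = 1 := by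
    rw [← pow_succ', ← hq, ← mul_pow, hv, one_pow]
  calc x * algebraMap N (Localization M) s * algebraMap N (Localization M) s ^ q * v ^ p
      = x * (algebraMap N (Localization M) s * algebraMap N (Localization M) s ^ q * v ^ p) := by
        ring
    _ = x := by rw [h3, mul_one]

end loc

section

variable (p : ℕ) [hp : Fact p.Prime] {C : Type u} [CommRing C] [CharP C p] [PerfectRing C p]

/-- **existence of the ring `C'`**; all the nonzerodivisors of `C` stay nonzerodivisors. -/
theorem exists_natZ_reg {t η : C} (ht : t ∈ nonZeroDivisors C) (hη : η ^ 3 ∉ Ideal.span {t}) :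
    ∃ Z : NatZ p C t η, ∀ a ∈ nonZeroDivisors C, Z.f a ∈ nonZeroDivisors Z.C' := by
  have hη0 : η ≠ 0 := by
    rintro rfl
    apply hη
    rw [zero_pow (by norm_num)]
    exact zero_mem _
  obtain ⟨E⟩ := nonempty_natE p t hη0
  set f0 := algebraMap C E.N with hf0
  set M := oneAdd (f0 t) with hMdef
  have hM : (0 : E.N) ∉ M := by
    rintro ⟨b, hb⟩
    obtain ⟨x', _, hx'⟩ := E.n2J0 (SP_top p) t dvd_rfl (x := 1) Submodule.mem_top
      (y := -b) (by
        have : (⊤ : Ideal C).map (algebraMap C E.N) = ⊤ := Ideal.map_top _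
        rw [this]; exact Submodule.mem_top) (by
        rw [map_one]
        linear_combination -hb)
    apply hη
    rw [mul_one] at hx'
    rw [hx']
    exact Ideal.mul_mem_right _ _ (Ideal.mem_span_singleton_self _)
  haveI := charP_locM p M hM
  haveI := perfect_locM p M hM
  set g : E.N →+* Localization M := algebraMap E.N (Localization M) with hg
  set f : C →+* Localization M := g.comp f0 with hf
  have hfap : ∀ a, f a = g (f0 a) := fun a => rfl
  have hmap : ∀ J : Ideal C, J.map f = (J.map f0).map g := fun J => (Ideal.map_map f0 g).symm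
  -- elements of the extension of `J`
  have hJ : ∀ J : Ideal C, ∀ x ∈ J.map f, ∃ y ∈ J.map f0, ∃ b : E.N,
      x * (1 + g (f0 t) * g b) = g y := by
    intro J x hx
    rw [hmap, IsLocalization.mem_map_algebraMap_iff M] at hx
    obtain ⟨⟨⟨y, hy⟩, ⟨s, b, rfl⟩⟩, h⟩ := hx
    refine ⟨y, hy, b, ?_⟩
    rw [← map_one g, ← map_mul, ← map_add]
    exact h
  have hreg : ∀ a ∈ nonZeroDivisors C, f a ∈ nonZeroDivisors (Localization M) :=
    fun a ha => IsLocalization.map_nonZeroDivisors_le M (Localization M)
      ⟨f0 a, E.reg a ha, rfl⟩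
  refine ⟨{
    C' := Localization M
    f := f
    reg := hreg t ht
    jac := ?_
    dvd := ?_
    n1 := ?_
    n2 := ?_ }, hreg⟩
  · rw [Ideal.mem_jacobson_bot]
    intro x
    obtain ⟨⟨a, ⟨s, b, rfl⟩⟩, h⟩ := IsLocalization.surj M x
    have h' : x * g (1 + f0 t * b) = g a := h
    have hu1 : IsUnit (g (1 + f0 t * b)) := IsLocalization.map_units (Localization M)
      (⟨1 + f0 t * b, b, rfl⟩ : M)
    have hu2 : IsUnit (g (1 + f0 t * (b + a))) := IsLocalization.map_units (Localization M)
      (⟨1 + f0 t * (b + a), b + a, rfl⟩ : M)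
    have h3 : (f t * x + 1) * g (1 + f0 t * b) = g (1 + f0 t * (b + a)) := by
      rw [hfap]
      simp only [map_add, map_mul, map_one] at h' ⊢
      linear_combination g (f0 t) * h'
    rw [← h3] at hu2
    exact isUnit_of_mul_isUnit_left hu2
  · rw [hfap, hfap]
    exact map_dvd g E.dvd
  · intro J x hx
    obtain ⟨y, hy, b, h⟩ := hJ J x hx
    obtain ⟨a, ha, z, hz, h1⟩ := E.n1J0 J hy
    refine ⟨a, ha, g z - f η * g b * x, ?_, ?_⟩
    · refine sub_mem ?_ (Ideal.mul_mem_left _ _ hx)
      rw [hmap]
      exact Ideal.mem_map_of_mem g hz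
    · have h2 : g (f0 η) * g y = g (f0 a) + g (f0 t) * g z := by
        rw [← map_mul, h1, map_add, map_mul]
      rw [hfap, hfap, hfap]
      linear_combination g (f0 η) * h + h2
  · rintro J hSP x hx ⟨y, hy, hxy⟩
    obtain ⟨y0, hy0, b, h⟩ := hJ J y hy
    have h1 : g (f0 x * (1 + f0 t * b)) = g (f0 t * y0) := by
      rw [map_mul, map_mul, map_add, map_one, map_mul, ← h]
      rw [hfap, hfap] at hxy
      rw [hxy]
      ring
    rw [hg, IsLocalization.eq_iff_exists M] at h1
    obtain ⟨⟨s, b', rfl⟩, h2⟩ := h1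
    have h2' : (1 + f0 t * b') * (f0 x * (1 + f0 t * b)) = (1 + f0 t * b') * (f0 t * y0) := h2
    refine E.n2J0 hSP t dvd_rfl hx (y := (1 + f0 t * b') * y0 - (b + b' + f0 t * b * b') * f0 x)
      ?_ ?_
    · exact sub_mem (Ideal.mul_mem_left _ _ hy0)
        (Ideal.mul_mem_left _ _ (Ideal.mem_map_of_mem _ hx))
    · linear_combination h2'

theorem exists_natZ {t η : C} (ht : t ∈ nonZeroDivisors C) (hη : η ^ 3 ∉ Ideal.span {t}) :
    Nonempty (NatZ p C t η) := by
  obtain ⟨Z, _⟩ := exists_natZ_reg p ht hη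
  exact ⟨Z⟩

end

end Vale.Agent.P177.CN
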