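import Vale.Agent.P177.Nat.NatW

/-!
P177, (N4): relations which hold modulo `(p - [t], p ^ M)` after multiplication by `[η]` hold
exactly modulo `(p - [t], p ^ (M - κ))` when `η` divides `t ^ κ` and `t` is regular.
-/

namespace Vale.Agent.P177.NatC

open Vale.Agent.P177.Perf Vale.Agent.P177.PI WittVector

universe u v

variable (p : ℕ) [hp : Fact p.Prime] {C : Type u} [CommRing C] [CharP C p] [PerfectRing C p]

/-- `p` is regular modulo `p - [t]`. -/
theorem exists_of_p_mul {t : C} (ht : t ∈ nonZeroDivisors C) {r a b : WittVector p C} {M : ℕ}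
    (h : (p : WittVector p C) * r = ((p : WittVector p C) - teichmuller p t) * a +
      (p : WittVector p C) ^ (M + 1) * b) :
    ∃ a', r = ((p : WittVector p C) - teichmuller p t) * a' + (p : WittVector p C) ^ M * b := by
  have h5 : a.coeff 0 = 0 := by
    have h1 := congrArg WittVector.constantCoeff h
    rw [map_add, map_mul, map_mul, map_mul, map_sub, map_pow, map_natCast, CharP.cast_eq_zero,
      zero_sub, zero_mul, zero_pow (Nat.succ_ne_zero M), zero_mul, add_zero] at h1
    have h2 : 0 = -(teichmuller p t).coeff 0 * a.coeff 0 := h1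
    rw [teichmuller_coeff_zero, neg_mul, eq_comm, neg_eq_zero] at h2
    exact (mul_left_mem_nonZeroDivisors_eq_zero_iff ht).1 h2
  rw [← WittVector.mem_span_p_iff_coeff_zero_eq_zero, Ideal.mem_span_singleton'] at h5
  obtain ⟨a', rfl⟩ := h5
  refine ⟨a', ?_⟩
  have h6 : (r - (((p : WittVector p C) - teichmuller p t) * a' +
      (p : WittVector p C) ^ M * b)) * (p : WittVector p C) = 0 := by
    linear_combination h
  exact sub_eq_zero.1 (WittVector.eq_zero_of_p_mul_eq_zero _ h6)

theorem exists_of_p_pow_mul {t : C} (ht : t ∈ nonZeroDivisors C) {r b : WittVector p C}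
    {M : ℕ} (κ : ℕ) {a : WittVector p C}
    (h : (p : WittVector p C) ^ κ * r = ((p : WittVector p C) - teichmuller p t) * a +
      (p : WittVector p C) ^ (M + κ) * b) :
    ∃ a', r = ((p : WittVector p C) - teichmuller p t) * a' + (p : WittVector p C) ^ M * b := by
  induction κ generalizing a with
  | zero => exact ⟨a, by simpa using h⟩
  | succ κ ih =>
    have h1 : (p : WittVector p C) * (p ^ κ * r) = ((p : WittVector p C) - teichmuller p t) * a +
        (p : WittVector p C) ^ (M + κ + 1) * b := by
      rw [← mul_assoc, ← pow_succ']; exact h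
    obtain ⟨a', h2⟩ := exists_of_p_mul p ht h1
    exact ih h2

/-- **(N4)** -/
theorem exact_rel {t : C} (ht : t ∈ nonZeroDivisors C) {η w : C} {κ M : ℕ}
    (hw : η * w = t ^ κ) {r a b : WittVector p C}
    (h : teichmuller p η * r = ((p : WittVector p C) - teichmuller p t) * a +
      (p : WittVector p C) ^ M * b) (hκ : κ ≤ M) :
    ∃ a' b', r = ((p : WittVector p C) - teichmuller p t) * a' +
      (p : WittVector p C) ^ (M - κ) * b' := by
  obtain ⟨N, rfl⟩ : ∃ N, M = N + κ := ⟨M - κ, by omega⟩
  rw [Nat.add_sub_cancel]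
  have h1 : (p : WittVector p C) ^ κ * r = ((p : WittVector p C) - teichmuller p t) *
      (SS p t κ * r + teichmuller p w * a) + (p : WittVector p C) ^ (N + κ) *
        (teichmuller p w * b) := by
    have h2 : teichmuller p t ^ κ = teichmuller p η * teichmuller p w := by
      rw [← map_pow, ← hw, map_mul]
    have h3 := SS_mul p t κ
    rw [h2] at h3
    linear_combination (-r) * h3 + teichmuller p w * h
  obtain ⟨a', h2⟩ := exists_of_p_pow_mul p ht κ h1
  exact ⟨a', _, h2⟩

variable {C' : Type v} [CommRing C'] [CharP C' p] [PerfectRing C' p] (f : C →+* C')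

omit [CharP C p] [PerfectRing C p] in
/-- **(N4)** along `f : C → C'`. -/
theorem exact_rel_map {t η : C} (ht : f t ∈ nonZeroDivisors C') {w : C'} {κ M : ℕ}
    (hw : f η * w = f t ^ κ) {r : WittVector p C}
    (h : ∃ a b, teichmuller p η * r = ((p : WittVector p C) - teichmuller p t) * a +
      (p : WittVector p C) ^ M * b) (hκ : κ ≤ M) :
    ∃ a b, WittVector.map f r = ((p : WittVector p C') - teichmuller p (f t)) * a +
      (p : WittVector p C') ^ (M - κ) * b := by
  obtain ⟨a, b, h⟩ := h
  have h1 := congrArg (WittVector.map f) h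
  rw [map_mul, map_add, map_mul, map_mul, map_sub, map_pow, map_natCast, map_teichmuller,
    map_teichmuller] at h1
  exact exact_rel p ht hw h1 hκ

end Vale.Agent.P177.NatC
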