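import Vale.Agent.P177.AR.Abs

/-!
P177, the ring `C♮` (block NAT-B): `W(C)/(p - [t], p ^ ν) → W(C♮)/(p - [t], p ^ ν)` has cokernel
killed by `[θ]` and kernel killed by `[θ ^ 3]`; transfer of the intersection property (HF).
-/

set_option linter.unusedSectionVars false

namespace Vale.Agent.P177.NatR

open WittVector Vale.Agent.P177.PI
open _root_.P202.Mix (teichmuller_mul_coeff)

universe u v

variable (p : ℕ) [hp : Fact p.Prime] {C : Type u} [CommRing C] [CharP C p] [PerfectRing C p]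
  {D : Type v} [CommRing D] [CharP D p] [PerfectRing D p] (f : C →+* D)

omit [CharP C p] [PerfectRing C p] [CharP D p] [PerfectRing D p] in
theorem map_te (c : C) : WittVector.map f (teichmuller p c) = teichmuller p (f c) :=
  WittVector.map_teichmuller p f c

theorem mem_WI_top (x : WittVector p C) : x ∈ WI p (⊤ : Ideal C) := by
  apply mem_WI_of_coeff
  intro k
  exact ⟨rt p k (x.coeff k), Submodule.mem_top, (rt_pow p k _).symm⟩

omit hp in
theorem isPerf_top : IsPerf p (⊤ : Ideal C) := fun _ _ _ _ _ _ _ _ => Submodule.mem_top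

/-- **(N3), kernel.** -/
theorem mem_XI_of_map {t : C} (ht : t ∈ nonZeroDivisors C) {ν : ℕ} {θ : C}
    (h2 : ∀ (x : C) (y : D), f x = f t ^ ν * y → ∃ x' : C, θ * x = t ^ ν * x')
    {X : WittVector p C} (hX : WittVector.map f X ∈ XI p (f t) ν) :
    teichmuller p θ * X ∈ XI p t ν := by
  rcases ν with _ | I
  · rw [mem_XI]
    exact ⟨0, teichmuller p θ * X, by rw [pow_zero]; ring⟩
  rw [mem_XI] at hX
  obtain ⟨v, w, hvw⟩ := hX
  have hinv := inv_of_mem p (f t) I v w _ hvw
  set ka : WittVector p C := -(∑ j ∈ Finset.range (I + 1), (p : WittVector p C) ^ j *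
    teichmuller p t ^ (I - j)) with hka
  have hmapka : WittVector.map f ka = -(∑ j ∈ Finset.range (I + 1), (p : WittVector p D) ^ j *
      teichmuller p (f t) ^ (I - j)) := by
    rw [hka, map_neg, map_sum]
    congr 1
    refine Finset.sum_congr rfl fun j _ => ?_
    rw [map_mul, map_pow, map_natCast, map_pow, map_te]
  rw [← hmapka, ← map_mul, WittVector.map_coeff] at hinv
  set a : C := rt p I ((ka * X).coeff I) with ha
  have hapow : a ^ p ^ I = (ka * X).coeff I := by rw [ha, rt_pow]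
  have hfa : f a = f t ^ (I + 1) * rt p I (v.coeff I) := by
    apply pow_pow_inj p I
    rw [← map_pow, hapow, hinv, mul_pow, rt_pow]
  obtain ⟨x', hx'⟩ := h2 _ _ hfa
  obtain ⟨v', -, w', -, he⟩ := t3J p (isPerf_top p) ht (mem_WI_top p (teichmuller p θ * X)) I
    (I + 1) le_rfl (b := x') Submodule.mem_top (by
      have h4 : ka * (teichmuller p θ * X) = teichmuller p θ * (ka * X) := by ring
      rw [h4, teichmuller_mul_coeff, ← hapow, ← mul_pow, hx'])
  exact (mem_XI p).2 ⟨v', w', he⟩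

omit [CharP D p] [PerfectRing D p] in
theorem p_pow_mul_mem_XI (t : C) (ν : ℕ) (x : WittVector p C) :
    (p : WittVector p C) ^ ν * x ∈ XI p t ν := (mem_XI p).2 ⟨0, x, by ring⟩

omit [CharP C p] [PerfectRing C p] in
theorem te_pow_mul_mem_XI (t : C) (ν : ℕ) (x : WittVector p C) :
    teichmuller p t ^ ν * x ∈ XI p t ν := by
  rw [mem_XI]
  refine ⟨-(∑ j ∈ Finset.range ν, (p : WittVector p C) ^ j *
    teichmuller p t ^ (ν - 1 - j)) * x, x, ?_⟩
  have hgeom : (∑ j ∈ Finset.range ν, (p : WittVector p C) ^ j *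
      teichmuller p t ^ (ν - 1 - j)) * ((p : WittVector p C) - teichmuller p t) =
      (p : WittVector p C) ^ ν - teichmuller p t ^ ν :=
    Commute.geom_sum₂_mul (Commute.all (p : WittVector p C) (teichmuller p t)) ν
  linear_combination x * hgeom

/-- `[a + t ^ K z] ≡ [a]` modulo `(p - [t], p ^ ν)` for `K ≥ ν p ^ ν`. -/
theorem te_add_sub_mem_XI (t : C) {ν K : ℕ} (hK : ν * p ^ ν ≤ K) (a z : C) :
    teichmuller p (a + t ^ K * z) - teichmuller p a ∈ XI p t ν := by
  obtain ⟨M, rfl⟩ := Nat.exists_eq_add_of_le hK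
  set α := rt p ν a with hα
  set β := rt p ν (t ^ M * z) with hβ
  have hb : (t ^ ν * β) ^ p ^ ν = t ^ (ν * p ^ ν + M) * z := by
    rw [mul_pow, hβ, rt_pow, ← pow_mul, pow_add]; ring
  have hsum : (α + t ^ ν * β) ^ p ^ ν = a + t ^ (ν * p ^ ν + M) * z := by
    rw [add_pow_char_pow, hb, hα, rt_pow]
  -- `[α + t^ν β] ≡ [α] + [t]^ν [β] mod p`
  have h3 : (p : WittVector p C) ∣ (teichmuller p α + teichmuller p (t ^ ν * β)) -
      teichmuller p (α + t ^ ν * β) := by
    have h1 : (teichmuller p α + teichmuller p (t ^ ν * β) -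
        teichmuller p (α + t ^ ν * β)).coeff 0 = 0 := by
      have h2 : WittVector.constantCoeff (teichmuller p α + teichmuller p (t ^ ν * β) -
          teichmuller p (α + t ^ ν * β)) = 0 := by
        rw [map_sub, map_add]
        change (teichmuller p α).coeff 0 + (teichmuller p (t ^ ν * β)).coeff 0 -
          (teichmuller p (α + t ^ ν * β)).coeff 0 = 0
        rw [teichmuller_coeff_zero, teichmuller_coeff_zero, teichmuller_coeff_zero, sub_self]
      exact h2
    rw [← WittVector.mem_span_p_iff_coeff_zero_eq_zero, Ideal.mem_span_singleton] at h1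
    exact h1
  have h4 := dvd_sub_pow_of_dvd_sub h3 ν
  rw [← map_pow (teichmuller p) (α + t ^ ν * β), hsum] at h4
  obtain ⟨w, hw⟩ := h4
  obtain ⟨c, hc⟩ : teichmuller p (t ^ ν * β) ∣
      (teichmuller p α + teichmuller p (t ^ ν * β)) ^ p ^ ν - teichmuller p α ^ p ^ ν := by
    have h5 := sub_dvd_pow_sub_pow (teichmuller p α + teichmuller p (t ^ ν * β))
      (teichmuller p α) (p ^ ν)
    rwa [add_sub_cancel_left] at h5
  have h6 : teichmuller p α ^ p ^ ν = teichmuller p a := by rw [← map_pow, hα, rt_pow]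
  have h7 : teichmuller p (a + t ^ (ν * p ^ ν + M) * z) - teichmuller p a =
      teichmuller p t ^ ν * (teichmuller p β * c) - (p : WittVector p C) ^ ν * (p * w) := by
    have h8 : teichmuller p (t ^ ν * β) = teichmuller p t ^ ν * teichmuller p β := by
      rw [map_mul, map_pow]
    rw [h6] at hc
    rw [h8] at hc hw
    rw [pow_succ] at hw
    linear_combination hc - hw
  rw [h7]
  exact sub_mem (te_pow_mul_mem_XI p t ν _) (p_pow_mul_mem_XI p t ν _)

/-- **(N3), cokernel.** -/
theorem exists_map_sub_mem_XI {t θ : C} {ν K : ℕ} (hK : ν * p ^ ν ≤ K)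
    (h1 : ∀ y : D, ∃ (x : C) (z : D), f θ * y = f x + f t ^ K * z) (Y : WittVector p D) :
    ∃ X : WittVector p C, teichmuller p (f θ) * Y - WittVector.map f X ∈ XI p (f t) ν := by
  suffices h : ∀ m : ℕ, ∃ (X : WittVector p C) (Z : WittVector p D),
      teichmuller p (f θ) * Y - WittVector.map f X - (p : WittVector p D) ^ m * Z ∈
        XI p (f t) ν by
    obtain ⟨X, Z, hXZ⟩ := h ν
    refine ⟨X, ?_⟩
    have := add_mem hXZ (p_pow_mul_mem_XI p (f t) ν Z)
    rwa [sub_add_cancel] at this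
  suffices h : ∀ m : ℕ, ∃ (X : WittVector p C) (Z : WittVector p D),
      teichmuller p (f θ) * Y - WittVector.map f X - (p : WittVector p D) ^ m *
        (teichmuller p (f θ) * Z) ∈ XI p (f t) ν by
    intro m
    obtain ⟨X, Z, hXZ⟩ := h m
    exact ⟨X, _, hXZ⟩
  intro m
  induction m with
  | zero => exact ⟨0, Y, by rw [map_zero, pow_zero, one_mul, sub_zero, sub_self]; exact zero_mem _⟩
  | succ m ih =>
    obtain ⟨X, Z, hXZ⟩ := ih
    obtain ⟨-, Z', -, hZ⟩ := exists_of_mem_WI p (isPerf_top p) (mem_WI_top p Z)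
    obtain ⟨x, z, hxz⟩ := h1 (Z.coeff 0)
    refine ⟨X + (p : WittVector p C) ^ m * teichmuller p x, Z', ?_⟩
    have h2 := te_add_sub_mem_XI p (f t) hK (f x) z
    rw [← hxz] at h2
    have h3 := add_mem hXZ (Ideal.mul_mem_left _ ((p : WittVector p D) ^ m) h2)
    convert h3 using 1
    rw [map_add, map_mul, map_pow, map_natCast, map_te, map_mul (teichmuller p)]
    generalize Z.coeff 0 = a at *
    rw [hZ, pow_succ]
    ring

/-- **(HF)** for `C♮`. -/
theorem HF_transfer {A O O' : Type*} [CommRing A] [CommRing O] [CommRing O'] {t θ : C} {ν K : ℕ}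
    (ht : t ∈ nonZeroDivisors C) (hK : ν * p ^ ν ≤ K)
    (h1 : ∀ y : D, ∃ (x : C) (z : D), f θ * y = f x + f t ^ K * z) {θ' : C}
    (h2 : ∀ (x : C) (y : D), f x = f t ^ ν * y → ∃ x' : C, θ' * x = t ^ ν * x')
    (π : WittVector p C →+* O) (hπ : Function.Surjective π) (hker : RingHom.ker π = XI p t ν)
    (π' : WittVector p D →+* O') (hπ' : Function.Surjective π')
    (hker' : RingHom.ker π' = XI p (f t) ν)
    (F : O →+* O') (hF : ∀ x, F (π x) = π' (WittVector.map f x)) (ψ : A →+* O) (γ : C)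
    (I J : Ideal A) (HF : ∀ m, m ∈ I.map ψ → m ∈ J.map ψ →
      π (teichmuller p γ) * m ∈ (I ⊓ J).map ψ) (m : O') (hmI : m ∈ I.map (F.comp ψ))
    (hmJ : m ∈ J.map (F.comp ψ)) :
    π' (teichmuller p (f (θ' * θ * γ))) * m ∈ (I ⊓ J).map (F.comp ψ) := by
  -- lifting `[θ] m`
  have hlift : ∀ L : Ideal A, ∀ m, m ∈ L.map (F.comp ψ) → ∃ x : WittVector p C,
      π x ∈ L.map ψ ∧ F (π x) = π' (teichmuller p (f θ)) * m := by
    intro L m hm
    refine Submodule.closure_induction (p := fun m _ => ∃ x : WittVector p C,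
      π x ∈ L.map ψ ∧ F (π x) = π' (teichmuller p (f θ)) * m) ?_ ?_ ?_ hm
    · exact ⟨0, by rw [map_zero]; exact zero_mem _, by rw [map_zero, map_zero, mul_zero]⟩
    · rintro a b - - ⟨x, hx, hxe⟩ ⟨y, hy, hye⟩
      exact ⟨x + y, by rw [map_add]; exact add_mem hx hy, by rw [map_add, map_add, hxe, hye,
        mul_add]⟩
    · rintro s _ ⟨a, ha, rfl⟩
      obtain ⟨S, rfl⟩ := hπ' s
      obtain ⟨S', hS'⟩ := exists_map_sub_mem_XI p f hK h1 S
      obtain ⟨x, hx⟩ := hπ (ψ a)
      refine ⟨S' * x, ?_, ?_⟩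
      · rw [map_mul, hx]
        exact Ideal.mul_mem_left _ _ (Ideal.mem_map_of_mem _ ha)
      · rw [← hker', RingHom.mem_ker, map_sub, map_mul, sub_eq_zero] at hS'
        rw [map_mul, map_mul, hx, hF, ← hS', smul_eq_mul, RingHom.comp_apply, mul_assoc]
  obtain ⟨x, hx, hxe⟩ := hlift I m hmI
  obtain ⟨y, hy, hye⟩ := hlift J m hmJ
  -- the difference is in the kernel
  have h3 : WittVector.map f (x - y) ∈ XI p (f t) ν := by
    rw [← hker', RingHom.mem_ker, ← hF, map_sub, map_sub, hxe, hye, sub_self]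
  have h4 := mem_XI_of_map p f ht h2 h3
  rw [← hker, RingHom.mem_ker, map_mul, map_sub, mul_sub, sub_eq_zero] at h4
  have h5 := HF _ (Ideal.mul_mem_left _ (π (teichmuller p θ')) hx)
    (by rw [h4]; exact Ideal.mul_mem_left _ _ hy)
  have h6 := Ideal.mem_map_of_mem F h5
  rw [Ideal.map_map] at h6
  convert h6 using 1
  rw [map_mul F, map_mul F, hxe, hF, hF, map_te, map_te]
  simp only [map_mul]
  ring

end Vale.Agent.P177.NatR
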