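import Vale.Agent.P177.Nat.MassW
import Vale.Agent.P177.Perf.KTor
import Vale.Agent.P177.KM.FinTor

/-!
P177, base case and finiteness of Tor on the `R`-side.
-/

namespace Vale.Agent.P177.MN

open Vale.Agent.P177.KG Vale.Agent.P202.Mix Vale.Agent.P177.PI WittVector IsLocalRing
open scoped ENNReal TensorProduct

universe u

section Red

variable {V D : Type u} [CommRing V] [CommRing D] [Algebra V D]
  {X : Type u} [AddCommGroup X] [Module V X] [Module D X] [IsScalarTower V D X] {n : ℕ}

theorem KC_len_mod_aux (LV : ALen V) (p : ℕ) (hpX : ∀ x : X, (p : V) • x = 0 → x = 0)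
    (ud : Fin n → D) (uv : Fin n → V) {K : Type u} [AddCommGroup K] [Module V K] [Module D K]
    [IsScalarTower V D K] (g : X →ₗ[D] K) (hg : Function.Surjective g)
    (hk : ∀ m, g m = 0 ↔ ∃ y, (p : V) • y = m)
    (hu : ∀ l (x : X), ∃ y : X, ud l • x = uv l • x + (p : V) • y) (i : ℕ) :
    (LV.res D).len ((KC X ((p : D) :: List.ofFn ud)).H i) =
      LV.len ((KC X ((p : V) :: List.ofFn uv)).H i) := by
  have hpD : ∀ x : X, (p : D) • x = (p : V) • x := fun x => by
    rw [← algebraMap_smul D (p : V) x, map_natCast]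
  have hgV : ∀ (v : V) (x : X), g (v • x) = v • g x := fun v x => by
    rw [← algebraMap_smul D v x, map_smul, algebraMap_smul]
  let gV : X →ₗ[V] K :=
    { toFun := g
      map_add' := map_add g
      map_smul' := hgV }
  have h1 := KC_len_cons (LV.res D) (p : D)
    (fun m hm => hpX m (by rw [← hpD]; exact hm)) g hg
    (fun m => by
      rw [hk]
      constructor
      · rintro ⟨y, hy⟩
        exact ⟨y, by rw [hpD]; exact hy⟩
      · rintro ⟨y, hy⟩
        exact ⟨y, by rw [← hpD]; exact hy⟩) (List.ofFn ud) i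
  have h2 := KC_len_cons LV (p : V) hpX gV hg hk (List.ofFn uv) i
  have h3 := KC_len_ops (V := K) (C := D) (C' := V) LV ud uv (by
    intro l v
    obtain ⟨x, rfl⟩ := hg v
    obtain ⟨y, hy⟩ := hu l x
    rw [← map_smul, hy, map_add, (hk _).2 ⟨y, rfl⟩, add_zero, hgV]) i
  rw [h1, h3, h2]
  exact ALen.res_len LV _

/-- the operators of the list only matter modulo `p`. -/
theorem KC_len_mod (LV : ALen V) (p : ℕ) (hpX : ∀ x : X, (p : V) • x = 0 → x = 0)
    (ud : Fin n → D) (uv : Fin n → V)
    (hu : ∀ l (x : X), ∃ y : X, ud l • x = uv l • x + (p : V) • y) (i : ℕ) :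
    (LV.res D).len ((KC X ((p : D) :: List.ofFn ud)).H i) =
      LV.len ((KC X ((p : V) :: List.ofFn uv)).H i) := by
  -- `K = X / p X`
  let P : Submodule D X := LinearMap.range (LinearMap.lsmul D X (p : D))
  have hk : ∀ x : X, P.mkQ x = 0 ↔ ∃ y, (p : V) • y = x := by
    intro x
    rw [Submodule.mkQ_apply, Submodule.Quotient.mk_eq_zero]
    constructor
    · rintro ⟨y, hy⟩
      refine ⟨y, ?_⟩
      have hy' : (p : D) • y = x := hy
      rw [← hy', ← algebraMap_smul D (p : V) y, map_natCast (algebraMap V D)]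
    · rintro ⟨y, hy⟩
      refine ⟨y, ?_⟩
      show (p : D) • y = x
      rw [← hy, ← algebraMap_smul D (p : V) y, map_natCast (algebraMap V D)]
  exact KC_len_mod_aux LV p hpX ud uv P.mkQ (Submodule.mkQ_surjective _) hk hu i

end Red

section Fin

variable {R D : Type u} [CommRing R] [CommRing D] [Algebra R D] [Module.Flat R D]
  [IsNoetherianRing R] [IsLocalRing R]

/-- **finiteness of Tor** from finiteness of Koszul homology. -/
theorem len_tor_lt_top_of_KC (L : AddLen D) {X : Type u} [AddCommGroup X] [Module D X]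
    (r : List R) (hr : RingTheory.Sequence.IsWeaklyRegular R r)
    (hrm : Ideal.ofList r = maximalIdeal R) (P I : Ideal R)
    (hI : ∀ h ∈ I, ∀ x : X, algebraMap R D h • x = 0)
    (hm : maximalIdeal R ≤ (P ⊔ I).radical) (ys : List D) (l : ℕ)
    (hy : ∀ y ∈ ys, y ^ l ∈ (maximalIdeal R).map (algebraMap R D))
    (hfin : ∀ q, L.len ((KC X ys).H q) < ⊤)
    (A : Type u) [AddCommGroup A] [Module R A] [Module.Finite R A]
    (hA : ∀ a ∈ P, ∀ x : A, a • x = 0) (i : ℕ) :
    L.len (TorM D i X (D ⊗[R] A)) < ⊤ := by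
  refine KM.TF.len_tor_lt_top (R := R) L X ?_ i
  refine KM.TF.of_residue L X P I hI hm ?_ A hA
  refine KM.TF.of_len_tor_lt_top (R := R) L X ?_
  intro j
  rw [← hrm]
  refine len_tor_flat_lt_top (ALen.of L) hr X (ys := ys) (l := l) ?_ hfin j
  intro y hy'
  have h1 := hy y hy'
  rw [← hrm, Ideal.map_ofList] at h1
  exact h1

end Fin

end Vale.Agent.P177.MN
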