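import Vale.Agent.P177.Nat.NatW

/-!
# Block GB of P177: comparison of the pieces of the flag with the honest modules

`f : C → C'` a homomorphism of perfect rings, `J ⊆ C`, `J' ⊆ C'` perfect ideals with `f J ⊆ J'` and
`J / t → J' / t'` an isomorphism up to `η`.  `H = WI J' / E' WI J'`, `E'` the equation of `R`, with
`(E', p ^ N) = (p - [t'], p ^ N)`, a module over `D` through `ρ : D → W(C') / E'`, and `α ∈ D` acts
as `p ^ c * unit`.  Then `WI J / (p - [t], p ^ N) WI J → H / α ^ (m + 1) H`, `N = c (m + 1)`, has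
kernel and cokernel killed by `[η] ^ (3 N)`.
-/

namespace Vale.Agent.P177.NatG

open Vale.Agent.P177.PI Vale.Agent.P177.NatC WittVector

universe u v w

section

variable (p : ℕ) [hp : Fact p.Prime] {C' : Type v} [CommRing C']

/-- the honest module of the ideal `J'` and the equation `E'`. -/
abbrev HM (J' : Ideal C') (E' : WittVector p C') : Type v :=
  (WI p J') ⧸ (Ideal.span {E'} • (⊤ : Submodule (WittVector p C') (WI p J')))

variable {p} {J' : Ideal C'} {E' : WittVector p C'}

theorem hm_mk_eq_zero (x : WI p J') : (Submodule.Quotient.mk x : HM p J' E') = 0 ↔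
    ∃ y ∈ WI p J', (x : WittVector p C') = E' * y := by
  rw [Submodule.Quotient.mk_eq_zero, Submodule.ideal_span_singleton_smul,
    Submodule.mem_smul_pointwise_iff_exists]
  constructor
  · rintro ⟨y, -, rfl⟩
    exact ⟨y, y.2, rfl⟩
  · rintro ⟨y, hy, he⟩
    exact ⟨⟨y, hy⟩, trivial, Subtype.ext he.symm⟩

theorem hm_mk_eq (x y : WI p J') : (Submodule.Quotient.mk x : HM p J' E') = Submodule.Quotient.mk y ↔
    ∃ z ∈ WI p J', (x : WittVector p C') = y + E' * z := by
  rw [← sub_eq_zero, ← Submodule.Quotient.mk_sub, hm_mk_eq_zero]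
  constructor
  · rintro ⟨z, hz, he⟩
    refine ⟨z, hz, ?_⟩
    rw [← he]
    push_cast
    ring
  · rintro ⟨z, hz, he⟩
    refine ⟨z, hz, ?_⟩
    push_cast
    rw [he]
    ring

end

variable (p : ℕ) [hp : Fact p.Prime] {C : Type w} [CommRing C] [CharP C p] [PerfectRing C p]
  {C' : Type v} [CommRing C'] [CharP C' p] [PerfectRing C' p] (f : C →+* C')
  {D : Type u} [CommRing D]

/-- **Block GB.** -/
theorem exists_glue {J : Ideal C} {J' : Ideal C'} (hJ : IsPerf p J) (hJ' : IsPerf p J')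
    (hf : ∀ x ∈ J, f x ∈ J') (t η : C) (ht : f t ∈ nonZeroDivisors C')
    (hS : ∀ y ∈ J', ∃ x ∈ J, ∃ z ∈ J', f η * y = f x + f t * z)
    (hI : ∀ x ∈ J, (∃ z ∈ J', f x = f t * z) → ∃ y ∈ J, η ^ 3 * x = t * y)
    (M1 N1 : Ideal (WittVector p C)) (N : ℕ) (hM1 : ∀ x, x ∈ M1 ↔ x ∈ WI p J)
    (hN1 : ∀ x, x ∈ N1 ↔ ∃ u ∈ WI p J, ∃ v ∈ WI p J,
      x = ((p : WittVector p C) - teichmuller p t) * u + (p : WittVector p C) ^ N * v)
    (E' : WittVector p C')
    (hE1 : ∃ a b : WittVector p C', (p : WittVector p C') - teichmuller p (f t) =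
      a * E' + b * (p : WittVector p C') ^ N)
    (hE2 : ∃ a b : WittVector p C', E' =
      a * ((p : WittVector p C') - teichmuller p (f t)) + b * (p : WittVector p C') ^ N)
    [Module D (HM p J' E')] (ρ : D →+* WittVector p C' ⧸ Ideal.span {E'})
    (hρ : ∀ (d : D) (w : WittVector p C'), ρ d = Ideal.Quotient.mk _ w →
      ∀ h : HM p J' E', d • h = w • h)
    (α : D) (c m : ℕ) (u : WittVector p C') (hu : IsUnit u)
    (hα : ρ α = Ideal.Quotient.mk _ ((p : WittVector p C') ^ c * u)) (hN : c * (m + 1) = N)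
    (K : Submodule D (HM p J' E')) (hK : ∀ h, h ∈ K ↔ ∃ h', h = α ^ (m + 1) • h')
    (η' : D) (hη' : ρ η' = Ideal.Quotient.mk _ (teichmuller p (f η))) :
    ∃ π : (M1 ⧸ (Submodule.comap M1.subtype N1)) →+ (HM p J' E' ⧸ K),
      (∀ y, ∃ x, π x = η' ^ (3 * N) • y) ∧
      (∀ x, π x = 0 → teichmuller p η ^ (3 * N) • x = 0) ∧
      (∀ (d : D) (w : WittVector p C) (z : WittVector p C'),
        ρ d = Ideal.Quotient.mk _ (WittVector.map f w + (p : WittVector p C') ^ N * z) →
        ∀ x, π (w • x) = d • π x) := by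
  have hpw : ∀ h : HM p J' E', α ^ (m + 1) • h = ((p : WittVector p C') ^ N * u ^ (m + 1)) • h := by
    intro h
    refine hρ _ _ ?_ h
    rw [map_pow, hα, ← map_pow, mul_pow, ← pow_mul, hN]
  obtain ⟨ui, hui⟩ := hu.exists_right_inv
  have hui' : u ^ (m + 1) * ui ^ (m + 1) = 1 := by rw [← mul_pow, hui, one_pow]
  have hfm : ∀ x : M1, WittVector.map f (x : WittVector p C) ∈ WI p J' := fun x =>
    map_mem_WI p f hJ hf ((hM1 _).1 x.2)
  -- membership in `K`
  have hKmk : ∀ x : WI p J', (Submodule.Quotient.mk x : HM p J' E') ∈ K ↔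
      ∃ a ∈ WI p J', ∃ b ∈ WI p J', (x : WittVector p C') =
        ((p : WittVector p C') - teichmuller p (f t)) * a + (p : WittVector p C') ^ N * b := by
    intro x
    rw [hK]
    constructor
    · rintro ⟨h', hh⟩
      obtain ⟨z, rfl⟩ := Submodule.Quotient.mk_surjective _ h'
      rw [hpw, ← Submodule.Quotient.mk_smul, hm_mk_eq] at hh
      obtain ⟨y, hy, he⟩ := hh
      obtain ⟨a, b, hab⟩ := hE2
      refine ⟨a * y, Ideal.mul_mem_left _ _ hy, u ^ (m + 1) * z + b * y,
        add_mem (Ideal.mul_mem_left _ _ z.2) (Ideal.mul_mem_left _ _ hy), ?_⟩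
      rw [he]
      have h1 : (((p : WittVector p C') ^ N * u ^ (m + 1)) • z : WI p J').1 =
          (p : WittVector p C') ^ N * u ^ (m + 1) * z.1 := rfl
      rw [h1]
      linear_combination y * hab
    · rintro ⟨y, hy, z, hz, he⟩
      obtain ⟨a, b, hab⟩ := hE1
      refine ⟨Submodule.Quotient.mk ⟨ui ^ (m + 1) * (z + b * y),
        Ideal.mul_mem_left _ _ (add_mem hz (Ideal.mul_mem_left _ _ hy))⟩, ?_⟩
      rw [hpw, ← Submodule.Quotient.mk_smul, hm_mk_eq]
      refine ⟨a * y, Ideal.mul_mem_left _ _ hy, ?_⟩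
      have h1 : (((p : WittVector p C') ^ N * u ^ (m + 1)) •
          (⟨ui ^ (m + 1) * (z + b * y), Ideal.mul_mem_left _ _ (add_mem hz
            (Ideal.mul_mem_left _ _ hy))⟩ : WI p J') : WI p J').1 =
          (p : WittVector p C') ^ N * u ^ (m + 1) * (ui ^ (m + 1) * (z + b * y)) := rfl
      rw [h1, he]
      linear_combination y * hab - (p : WittVector p C') ^ N * (z + b * y) * hui'
  let π0 : M1 →+ (HM p J' E' ⧸ K) :=
    { toFun := fun x => Submodule.Quotient.mk (Submodule.Quotient.mk ⟨WittVector.map f x, hfm x⟩)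
      map_zero' := by
        rw [Submodule.Quotient.mk_eq_zero]
        have : (⟨WittVector.map f ((0 : M1) : WittVector p C), hfm 0⟩ : WI p J') = 0 :=
          Subtype.ext (map_zero _)
        rw [this, Submodule.Quotient.mk_zero]
        exact zero_mem _
      map_add' := fun x y => by
        rw [← Submodule.Quotient.mk_add, ← Submodule.Quotient.mk_add]
        congr 2
        exact Subtype.ext (map_add _ _ _) }
  have hπ0 : ∀ x : M1, π0 x = 0 ↔ ∃ a ∈ WI p J', ∃ b ∈ WI p J',
      WittVector.map f (x : WittVector p C) =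
        ((p : WittVector p C') - teichmuller p (f t)) * a + (p : WittVector p C') ^ N * b := by
    intro x
    change Submodule.Quotient.mk _ = _ ↔ _
    rw [Submodule.Quotient.mk_eq_zero, hKmk]
  let π : (M1 ⧸ (Submodule.comap M1.subtype N1)) →+ (HM p J' E' ⧸ K) :=
    QuotientAddGroup.lift (Submodule.comap M1.subtype N1).toAddSubgroup π0 (by
      intro x hx
      have hx' : (x : WittVector p C) ∈ N1 := hx
      obtain ⟨a, ha, b, hb, he⟩ := (hN1 _).1 hx'
      rw [AddMonoidHom.mem_ker, hπ0]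
      refine ⟨WittVector.map f a, map_mem_WI p f hJ hf ha, WittVector.map f b,
        map_mem_WI p f hJ hf hb, ?_⟩
      rw [he, map_add, map_mul, map_mul, map_sub, map_pow, map_natCast, map_teichmuller])
  have hπ : ∀ x : M1, π (Submodule.Quotient.mk x) = π0 x := fun x => rfl
  refine ⟨π, fun y => ?_, fun x hx => ?_, fun d w z' hdw x => ?_⟩
  · obtain ⟨h, rfl⟩ := Submodule.Quotient.mk_surjective _ y
    obtain ⟨z, rfl⟩ := Submodule.Quotient.mk_surjective _ h
    obtain ⟨x, hx, a, ha, b, hb, he⟩ := natW_surj p f hJ' hf t η hS N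
      (teichmuller p (f η) ^ (2 * N) * z) (Ideal.mul_mem_left _ _ z.2)
    refine ⟨Submodule.Quotient.mk ⟨x, (hM1 _).2 hx⟩, ?_⟩
    rw [hπ, ← Submodule.Quotient.mk_smul]
    have h1 : η' ^ (3 * N) • (Submodule.Quotient.mk z : HM p J' E') =
        teichmuller p (f η) ^ (3 * N) • (Submodule.Quotient.mk z : HM p J' E') :=
      hρ _ _ (by rw [map_pow, hη', map_pow]) _
    change Submodule.Quotient.mk (Submodule.Quotient.mk _) = _
    rw [h1, ← Submodule.Quotient.mk_smul, Submodule.Quotient.eq, ← Submodule.Quotient.mk_sub, hKmk]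
    refine ⟨-a, neg_mem ha, -b, neg_mem hb, ?_⟩
    have h2 : ((⟨WittVector.map f x, hfm ⟨x, (hM1 _).2 hx⟩⟩ : WI p J') -
        teichmuller p (f η) ^ (3 * N) • z : WI p J').1 =
        WittVector.map f x - teichmuller p (f η) ^ (3 * N) * z.1 := rfl
    refine h2.trans ?_
    have h3 : 3 * N = N + 2 * N := by ring
    rw [h3, pow_add]
    linear_combination -he
  · obtain ⟨z, rfl⟩ := Submodule.Quotient.mk_surjective _ x
    rw [hπ, hπ0] at hx
    obtain ⟨a, ha, b, hb, he⟩ := natW_inj p f hJ hJ' hf t (η ^ 3) ht hI N z ((hM1 _).1 z.2) hx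
    rw [← Submodule.Quotient.mk_smul, Submodule.Quotient.mk_eq_zero]
    change teichmuller p η ^ (3 * N) * (z : WittVector p C) ∈ N1
    rw [hN1]
    refine ⟨a, ha, b, hb, ?_⟩
    rw [← he, map_pow, ← pow_mul]
  · obtain ⟨z, rfl⟩ := Submodule.Quotient.mk_surjective _ x
    rw [← Submodule.Quotient.mk_smul, hπ, hπ]
    change Submodule.Quotient.mk (Submodule.Quotient.mk _) =
      d • Submodule.Quotient.mk (Submodule.Quotient.mk _)
    rw [← Submodule.Quotient.mk_smul, hρ d _ hdw, ← Submodule.Quotient.mk_smul, Submodule.Quotient.eq,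
      ← Submodule.Quotient.mk_sub, hKmk]
    refine ⟨0, zero_mem _, -(z' * WittVector.map f z), neg_mem (Ideal.mul_mem_left _ _ (hfm z)), ?_⟩
    change WittVector.map f (w * z.1) - (WittVector.map f w + (p : WittVector p C') ^ N * z') *
      WittVector.map f z.1 = _
    rw [map_mul]
    ring

end Vale.Agent.P177.NatG
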