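import Vale.Agent.P177.PI.KosW

/-!
P177, (N5): exact relations modulo `(p - [t], p ^ N)` inside perfect ideals `J' ⊆ J` with
`t ^ c J ⊆ J'`.
-/

namespace Vale.Agent.P177.NatC

open Vale.Agent.P177.Perf Vale.Agent.P177.PI WittVector

universe u

variable (p : ℕ) [hp : Fact p.Prime] {C : Type u} [CommRing C] [CharP C p] [PerfectRing C p]

/-- `∑ p ^ i [t] ^ (c - 1 - i)`. -/
noncomputable def SS (t : C) (c : ℕ) : WittVector p C :=
  ∑ j ∈ Finset.range c, (p : WittVector p C) ^ j * teichmuller p t ^ (c - 1 - j)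

omit [CharP C p] [PerfectRing C p] in
theorem SS_mul (t : C) (c : ℕ) : SS p t c * ((p : WittVector p C) - teichmuller p t) =
    (p : WittVector p C) ^ c - teichmuller p t ^ c :=
  Commute.geom_sum₂_mul (Commute.all (p : WittVector p C) (teichmuller p t)) c

/-- `p - [t]` is injective on `WI J / WI J'`. -/
theorem xi_inj {J J' : Ideal C} (hJ : IsPerf p J) (hJ' : IsPerf p J') {t : C} {c : ℕ}
    (ht : ∀ x ∈ J, t ^ c * x ∈ J') {x : WittVector p C} (hx : x ∈ WI p J)
    (h : ((p : WittVector p C) - teichmuller p t) * x ∈ WI p J') : x ∈ WI p J' := by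
  apply mem_of_p_pow_mul_mem p hJ' c
  have h1 : (p : WittVector p C) ^ c * x = SS p t c *
      (((p : WittVector p C) - teichmuller p t) * x) + teichmuller p (t ^ c) * x := by
    rw [map_pow]
    linear_combination (-x) * SS_mul p t c
  rw [h1]
  exact add_mem (Ideal.mul_mem_left _ _ h) (te_mul_mem_WI p hJ ht hx)

/-- **Lemma (N5).** -/
theorem exists_of_mem {J J' : Ideal C} (hJ : IsPerf p J) (hJ' : IsPerf p J') {t : C}
    {c M : ℕ} (hcM : c ≤ M) (ht : ∀ x ∈ J, t ^ c * x ∈ J') {x a b : WittVector p C}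
    (hx : x ∈ WI p J') (ha : a ∈ WI p J) (hb : b ∈ WI p J)
    (he : x = ((p : WittVector p C) - teichmuller p t) * a + (p : WittVector p C) ^ M * b) :
    ∃ a' ∈ WI p J', ∃ b' ∈ WI p J',
      x = ((p : WittVector p C) - teichmuller p t) * a' + (p : WittVector p C) ^ (M - c) * b' := by
  obtain ⟨N, rfl⟩ : ∃ N, M = N + c := ⟨M - c, by omega⟩
  rw [Nat.add_sub_cancel]
  have htb : teichmuller p (t ^ c) * b ∈ WI p J' := te_mul_mem_WI p hJ ht hb
  set a' : WittVector p C := a + SS p t c * (p : WittVector p C) ^ N * b with ha'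
  have key : ((p : WittVector p C) - teichmuller p t) * a' = x -
      (p : WittVector p C) ^ N * (teichmuller p (t ^ c) * b) := by
    rw [ha', he, map_pow]
    linear_combination (p : WittVector p C) ^ N * b * SS_mul p t c
  have h1 : a' ∈ WI p J' := by
    refine xi_inj p hJ hJ' ht (add_mem ha (Ideal.mul_mem_left _ _ hb)) ?_
    rw [key]
    exact sub_mem hx (Ideal.mul_mem_left _ _ htb)
  exact ⟨a', h1, _, htb, by rw [key]; ring⟩

/-- (N5) for the multiplication by a relation `r`. -/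
theorem rel_mul {J J' : Ideal C} (hJ : IsPerf p J) (hJ' : IsPerf p J') {t : C}
    {c M : ℕ} (hcM : c ≤ M) (ht : ∀ x ∈ J, t ^ c * x ∈ J') {r a b : WittVector p C}
    (he : r = ((p : WittVector p C) - teichmuller p t) * a + (p : WittVector p C) ^ M * b)
    (hr : ∀ x ∈ WI p J, r * x ∈ WI p J') {x : WittVector p C} (hx : x ∈ WI p J) :
    ∃ a' ∈ WI p J', ∃ b' ∈ WI p J', r * x =
      ((p : WittVector p C) - teichmuller p t) * a' + (p : WittVector p C) ^ (M - c) * b' := by
  refine exists_of_mem p hJ hJ' hcM ht (hr x hx) (Ideal.mul_mem_left _ a hx)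
    (Ideal.mul_mem_left _ b hx) ?_
  rw [he]
  ring

/-- products of elements of `WI`. -/
theorem mul_mem_WI {J₁ J₂ J' : Ideal C} (h₂ : IsPerf p J₂) (h : ∀ x ∈ J₁, ∀ y ∈ J₂, x * y ∈ J') {x y : WittVector p C}
    (hx : x ∈ WI p J₁) (hy : y ∈ WI p J₂) : x * y ∈ WI p J' := by
  rw [mem_WI]
  intro N
  obtain ⟨z, hz, w, rfl⟩ := (mem_TN_iff p).1 ((mem_WI p).1 hx N)
  rw [add_mul]
  refine add_mem ?_ ?_
  · have h1 : z * y ∈ WI p J' := by
      refine Submodule.span_induction (p := fun z _ => z * y ∈ WI p J') ?_ ?_ ?_ ?_ hz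
      · rintro _ ⟨c, hc, rfl⟩
        exact te_mul_mem_WI p h₂ (h c hc) hy
      · rw [zero_mul]; exact zero_mem _
      · intro a b _ _ ha hb
        rw [add_mul]; exact add_mem ha hb
      · intro a b _ hb
        rw [smul_eq_mul, mul_assoc]; exact Ideal.mul_mem_left _ _ hb
    exact (mem_WI p).1 h1 N
  · rw [mul_assoc]
    exact p_pow_mem_TN p J' N _

end Vale.Agent.P177.NatC
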