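import Vale.Agent.P177.PI.T3J
import Mathlib.RingTheory.LocalProperties.Reduced
import Mathlib.RingTheory.Localization.Away.Basic

/-!
# P177, block NAT-A of note 9642: the ring `C^nat = C[(t^c/Θ)^(1/p^∞)] ⊆ C[1/Θ]`

`C` perfect of characteristic `p`, `t` a nonzerodivisor, `Θ ∈ C`, `θ = Θ^(1/p^f)`.
(N0) `C^nat` is perfect and `t` is regular on it; (N1) `θ C^nat ⊆ C + t^(c/p^f) C^nat`;
(N2) `θ^3 (C ∩ t^ν C^nat) ⊆ t^ν C` if `ν p^f ≤ c`.
-/

set_option linter.all false

namespace Vale.Agent.P177.CN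

open Polynomial Vale.Agent.P177.PI

universe u

section gen

variable (p : ℕ) [hp : Fact p.Prime] {C : Type u} [CommRing C] [CharP C p] [PerfectRing C p]

theorem isReduced_of_perfect (p : ℕ) [hp : Fact p.Prime] (C : Type u) [CommRing C] [CharP C p]
    [PerfectRing C p] : IsReduced C := by
  refine ⟨fun x hx => ?_⟩
  obtain ⟨n, hn⟩ := hx
  have h1 : x ^ p ^ n = 0 := by
    have h2 : n ≤ p ^ n := (Nat.lt_pow_self hp.out.one_lt).le
    obtain ⟨m, hm⟩ := Nat.exists_eq_add_of_le h2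
    rw [hm, pow_add, hn, zero_mul]
  apply pow_pow_inj p n
  rw [h1, zero_pow (pow_ne_zero _ hp.out.ne_zero)]

theorem rt_pow' (e n : ℕ) (a : C) : rt p e (a ^ n) = rt p e a ^ n := by
  apply pow_pow_inj p e
  rw [rt_pow, ← pow_mul, mul_comm, pow_mul, rt_pow]

theorem rt_add_pow (e n : ℕ) (a : C) : rt p (n + e) a ^ p ^ n = rt p e a := by
  apply pow_pow_inj p e
  rw [rt_pow, ← pow_mul, ← pow_add, rt_pow]

theorem rt_rt (e n : ℕ) (a : C) : rt p n (rt p e a) = rt p (n + e) a := by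
  apply pow_pow_inj p (n + e)
  rw [rt_pow, pow_add, pow_mul, rt_pow, rt_pow]

variable {D : Type u} [CommRing D] [CharP D p] [PerfectRing D p] [Algebra C D]

theorem map_rt (e : ℕ) (a : C) : algebraMap C D (rt p e a) = rt p e (algebraMap C D a) := by
  apply pow_pow_inj p e
  rw [rt_pow, ← map_pow, rt_pow]

/-- the `C`-algebra generated by all the roots of `w`. -/
noncomputable def Nt (C : Type u) [CommRing C] [CharP C p] [PerfectRing C p]
    {D : Type u} [CommRing D] [CharP D p] [PerfectRing D p] [Algebra C D] (w : D) :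
    Subalgebra C D :=
  Algebra.adjoin C (Set.range fun e => rt p e w)

theorem rt_mem_Nt (w : D) (e : ℕ) : rt p e w ∈ Nt p C w := Algebra.subset_adjoin ⟨e, rfl⟩

/-- every element is a polynomial in one root of `w`. -/
theorem exists_poly (w : D) (f : ℕ) {x : D} (hx : x ∈ Nt p C w) :
    ∃ n, ∃ P : C[X], x = aeval (rt p (n + f) w) P := by
  have up : ∀ n m : ℕ, ∀ P : C[X], n ≤ m → ∃ Q : C[X],
      aeval (rt p (n + f) w) P = aeval (rt p (m + f) w) Q := by
    intro n m P h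
    obtain ⟨k, rfl⟩ := Nat.exists_eq_add_of_le h
    refine ⟨P.comp (X ^ p ^ k), ?_⟩
    rw [aeval_comp, map_pow, aeval_X]
    have : rt p (n + k + f) w = rt p (k + (n + f)) w := by congr 1; omega
    rw [this, rt_add_pow]
  refine Algebra.adjoin_induction (p := fun x _ => ∃ n, ∃ P : C[X],
    x = aeval (rt p (n + f) w) P) ?_ ?_ ?_ ?_ hx
  · rintro _ ⟨e, rfl⟩
    refine ⟨e, X ^ p ^ f, ?_⟩
    rw [map_pow, aeval_X, add_comm e f, rt_add_pow]
  · intro c
    exact ⟨0, Polynomial.C c, by rw [aeval_C]⟩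
  · rintro x y _ _ ⟨n, P, rfl⟩ ⟨m, Q, rfl⟩
    obtain ⟨P', h1⟩ := up n (n + m) P (by omega)
    obtain ⟨Q', h2⟩ := up m (n + m) Q (by omega)
    exact ⟨n + m, P' + Q', by rw [map_add, h1, h2]⟩
  · rintro x y _ _ ⟨n, P, rfl⟩ ⟨m, Q, rfl⟩
    obtain ⟨P', h1⟩ := up n (n + m) P (by omega)
    obtain ⟨Q', h2⟩ := up m (n + m) Q (by omega)
    exact ⟨n + m, P' * Q', by rw [map_mul, h1, h2]⟩

/-- `C^nat` is closed under roots. -/
theorem exists_root_Nt (w : D) {x : D} (hx : x ∈ Nt p C w) : ∃ y ∈ Nt p C w, y ^ p = x := by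
  refine Algebra.adjoin_induction (p := fun x _ => ∃ y ∈ Nt p C w, y ^ p = x) ?_ ?_ ?_ ?_ hx
  · rintro _ ⟨e, rfl⟩
    exact ⟨rt p (e + 1) w, rt_mem_Nt p w _, rt_succ_pow p e w⟩
  · intro c
    refine ⟨algebraMap C D (rt p 1 c), Subalgebra.algebraMap_mem _ _, ?_⟩
    rw [← map_pow]
    have := rt_pow p 1 c
    rw [pow_one] at this
    rw [this]
  · rintro x y _ _ ⟨a, ha, rfl⟩ ⟨b, hb, rfl⟩
    exact ⟨a + b, add_mem ha hb, add_pow_char _ _ _⟩
  · rintro x y _ _ ⟨a, ha, rfl⟩ ⟨b, hb, rfl⟩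
    exact ⟨a * b, mul_mem ha hb, mul_pow _ _ _⟩

/-- (N1) -/
theorem nat1 (w : D) (t Θ : C) (c : ℕ) (hw : algebraMap C D Θ * w = algebraMap C D (t ^ c))
    (f : ℕ) {x : D} (hx : x ∈ Nt p C w) : ∃ a : C, ∃ y ∈ Nt p C w,
      algebraMap C D (rt p f Θ) * x = algebraMap C D a + algebraMap C D (rt p f (t ^ c)) * y := by
  obtain ⟨n, P, rfl⟩ := exists_poly p w f hx
  set v := rt p (n + f) w with hv
  have hvm : v ∈ Nt p C w := rt_mem_Nt p w _
  have hrw : ∀ e, algebraMap C D (rt p e Θ) * rt p e w = algebraMap C D (rt p e (t ^ c)) := by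
    intro e
    rw [map_rt, ← rt_mul, hw, map_rt]
  have hvK : v ^ p ^ n = rt p f w := rt_add_pow p f n w
  have hTK : rt p (n + f) Θ ^ p ^ n = rt p f Θ := rt_add_pow p f n Θ
  clear hx
  induction P using Polynomial.induction_on' with
  | add P Q hP hQ =>
    obtain ⟨a, y, hy, h1⟩ := hP
    obtain ⟨a', y', hy', h2⟩ := hQ
    refine ⟨a + a', y + y', add_mem hy hy', ?_⟩
    rw [map_add, mul_add, h1, h2, map_add]
    ring
  | monomial i b =>
    rw [aeval_monomial]
    rcases le_or_gt (p ^ n) i with h | h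
    · obtain ⟨j, rfl⟩ := Nat.exists_eq_add_of_le h
      refine ⟨0, algebraMap C D b * v ^ j, mul_mem (Subalgebra.algebraMap_mem _ _)
        (pow_mem hvm _), ?_⟩
      rw [map_zero, zero_add, pow_add, hvK, ← hrw f]
      ring
    · obtain ⟨j, hj⟩ := Nat.exists_eq_add_of_le h.le
      refine ⟨b * rt p (n + f) Θ ^ j * rt p (n + f) (t ^ c) ^ i, 0, zero_mem _, ?_⟩
      rw [mul_zero, add_zero, ← hTK, hj, map_mul, map_mul, map_pow, map_pow, map_pow, ← hrw,
        pow_add]
      ring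

/-- (N2) -/
theorem nat2 (w : D) (t Θ : C) (c : ℕ) (hw : algebraMap C D Θ * w = algebraMap C D (t ^ c))
    (hker : ∀ a : C, algebraMap C D a = 0 → ∀ f, rt p f Θ * a = 0)
    (f ν : ℕ) (hν : ν * p ^ f ≤ c) (x : C) {y : D} (hy : y ∈ Nt p C w)
    (hxy : algebraMap C D x = algebraMap C D t ^ ν * y) :
    ∃ x' : C, rt p f Θ ^ 3 * x = t ^ ν * x' := by
  obtain ⟨n, P, hP⟩ := exists_poly p w f hy
  set e := n + f with he
  set v := rt p e w with hv
  set M := P.natDegree with hM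
  set K := p ^ n with hK
  have hrw : ∀ e, algebraMap C D (rt p e Θ) * rt p e w = algebraMap C D (rt p e (t ^ c)) := by
    intro e
    rw [map_rt, ← rt_mul, hw, map_rt]
  have hvK : v ^ K = rt p f w := rt_add_pow p f n w
  -- `τ = t^ν τ'`
  obtain ⟨τ', hτ'⟩ : ∃ τ', rt p f (t ^ c) = t ^ ν * τ' := by
    obtain ⟨j, hj⟩ := Nat.exists_eq_add_of_le hν
    refine ⟨rt p f t ^ j, ?_⟩
    rw [rt_pow', hj, pow_add, mul_comm ν, pow_mul, rt_pow]
  set z : D := algebraMap C D (rt p f Θ) * y with hz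
  -- the module
  set NN : Submodule C D := Submodule.span C ((fun j => v ^ j) '' {j | j ≤ M + K}) with hNN
  have hmem : ∀ j, j ≤ M + K → v ^ j ∈ NN := fun j hj => Submodule.subset_span ⟨j, hj, rfl⟩
  have hzNN : ∀ s ∈ NN, z * s ∈ NN := by
    intro s hs
    refine Submodule.span_induction (p := fun s _ => z * s ∈ NN) ?_ ?_ ?_ ?_ hs
    · rintro _ ⟨j, hj, rfl⟩
      rw [Set.mem_setOf_eq] at hj
      beta_reduce
      rcases le_or_gt K j with h | h
      · obtain ⟨i, rfl⟩ := Nat.exists_eq_add_of_le h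
        have h1 : z * v ^ (K + i) = (τ' * x) • v ^ i := by
          rw [Algebra.smul_def, map_mul, hxy, pow_add, hvK, hz]
          have h2 := hrw f
          rw [hτ', map_mul, map_pow] at h2
          linear_combination (y * v ^ i) * h2
        rw [h1]
        exact Submodule.smul_mem _ _ (hmem _ (by omega))
      · have h1 : z * v ^ j = ∑ i ∈ Finset.range (M + 1),
            (rt p f Θ * P.coeff i) • v ^ (i + j) := by
          rw [hz, hP, aeval_eq_sum_range, Finset.mul_sum, Finset.sum_mul]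
          refine Finset.sum_congr rfl fun i _ => ?_
          rw [Algebra.smul_def, Algebra.smul_def, map_mul, pow_add]
          ring
        rw [h1]
        refine Submodule.sum_mem _ fun i hi => Submodule.smul_mem _ _ (hmem _ ?_)
        rw [Finset.mem_range] at hi
        omega
    · rw [mul_zero]; exact zero_mem _
    · intro a b _ _ ha hb
      rw [mul_add]; exact add_mem ha hb
    · intro a b _ hb
      rw [mul_smul_comm]; exact Submodule.smul_mem _ _ hb
  have hzm : ∀ m, z ^ m ∈ NN := by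
    intro m
    induction m with
    | zero => rw [pow_zero]; simpa using hmem 0 (by omega)
    | succ m ih => rw [pow_succ']; exact hzNN _ ih
  have hbar : ∀ s ∈ NN, ∃ b : C, algebraMap C D (rt p e Θ) ^ (M + K) * s = algebraMap C D b := by
    intro s hs
    refine Submodule.span_induction (p := fun s _ => ∃ b : C,
      algebraMap C D (rt p e Θ) ^ (M + K) * s = algebraMap C D b) ?_ ?_ ?_ ?_ hs
    · rintro _ ⟨j, hj, rfl⟩
      rw [Set.mem_setOf_eq] at hj
      obtain ⟨i, hi⟩ := Nat.exists_eq_add_of_le hj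
      refine ⟨rt p e Θ ^ i * rt p e (t ^ c) ^ j, ?_⟩
      beta_reduce
      rw [hi, map_mul, map_pow, map_pow, ← hrw e, pow_add]
      ring
    · exact ⟨0, by rw [mul_zero, map_zero]⟩
    · rintro a b _ _ ⟨a', ha⟩ ⟨b', hb⟩
      exact ⟨a' + b', by rw [mul_add, ha, hb, map_add]⟩
    · rintro a b _ ⟨b', hb⟩
      exact ⟨a * b', by rw [mul_smul_comm, hb, Algebra.smul_def, map_mul]⟩
  -- the roots
  obtain ⟨m, hm⟩ : ∃ m, M + K ≤ p ^ m := ⟨M + K, (Nat.lt_pow_self hp.out.one_lt).le⟩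
  obtain ⟨b, hb⟩ := hbar _ (hzm (p ^ m))
  have hroot : algebraMap C D (rt p (m + e) Θ ^ (M + K)) * z = algebraMap C D (rt p m b) := by
    apply pow_pow_inj p m
    rw [← map_pow, rt_pow, ← hb, mul_pow, ← map_pow, ← pow_mul, mul_comm (M + K), pow_mul,
      rt_add_pow, map_pow]
  have hθ : rt p (m + e) Θ ^ p ^ (m + n) = rt p f Θ := by
    have := rt_add_pow p f (m + n) Θ
    rw [← this, he, add_assoc]
  obtain ⟨i, hi⟩ : ∃ i, p ^ (m + n) = (M + K) + i := by
    refine Nat.exists_eq_add_of_le (hm.trans ?_)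
    exact Nat.pow_le_pow_right hp.out.pos (by omega)
  have h2 : algebraMap C D (rt p f Θ) * z =
      algebraMap C D (rt p (m + e) Θ ^ i * rt p m b) := by
    rw [map_mul, ← hroot, ← hθ, hi, pow_add, map_mul]
    ring
  have h3 : algebraMap C D (rt p f Θ ^ 2 * x - t ^ ν * (rt p (m + e) Θ ^ i * rt p m b)) = 0 := by
    rw [map_sub, map_mul (algebraMap C D) (t ^ ν), ← h2, map_mul, map_pow, map_pow, hxy, hz]
    ring
  have h4 := hker _ h3 f
  exact ⟨rt p f Θ * (rt p (m + e) Θ ^ i * rt p m b), by linear_combination h4⟩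

end gen

section loc

variable (p : ℕ) [hp : Fact p.Prime] {C : Type u} [CommRing C] [CharP C p] [PerfectRing C p]

/-- the localization `C[1/Θ]`. -/
abbrev Lz (Θ : C) : Type u := Localization.Away Θ

theorem ker_Lz (Θ a : C) (h : algebraMap C (Lz Θ) a = 0) (f : ℕ) : rt p f Θ * a = 0 := by
  haveI := isReduced_of_perfect p C
  rw [IsLocalization.map_eq_zero_iff (Submonoid.powers Θ)] at h
  obtain ⟨⟨_, n, rfl⟩, hn⟩ := h
  have h1 : (rt p f Θ * a) ^ (p ^ f * n + 1) = 0 := by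
    rw [mul_pow, pow_succ (rt p f Θ), pow_mul, rt_pow, pow_succ a]
    have : Θ ^ n * a = 0 := hn
    linear_combination (rt p f Θ * a ^ (p ^ f * n)) * this
  exact pow_eq_zero_iff (by omega) |>.1 h1

include p in
theorem isReduced_Lz (Θ : C) : IsReduced (Lz Θ) := by
  haveI := isReduced_of_perfect p C
  exact isReduced_localizationPreserves (Submonoid.powers Θ) (Lz Θ) inferInstance

include p in
theorem nontrivial_Lz {Θ : C} (hΘ : Θ ≠ 0) : Nontrivial (Lz Θ) := by
  haveI := isReduced_of_perfect p C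
  refine ⟨⟨0, 1, fun h => hΘ ?_⟩⟩
  have h1 : algebraMap C (Lz Θ) 1 = 0 := by rw [map_one]; exact h.symm
  rw [IsLocalization.map_eq_zero_iff (Submonoid.powers Θ)] at h1
  obtain ⟨⟨_, n, rfl⟩, hn⟩ := h1
  have h2 : Θ ^ n = 0 := by simpa using hn
  exact eq_zero_of_pow_eq_zero h2

theorem charP_Lz {Θ : C} (hΘ : Θ ≠ 0) : CharP (Lz Θ) p := by
  haveI := nontrivial_Lz p hΘ
  rw [CharP.charP_iff_prime_eq_zero hp.out]
  rw [← map_natCast (algebraMap C (Lz Θ)), CharP.cast_eq_zero, map_zero]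

theorem perfect_Lz {Θ : C} (hΘ : Θ ≠ 0) :
    haveI := charP_Lz p hΘ
    PerfectRing (Lz Θ) p := by
  haveI := charP_Lz p hΘ
  haveI := isReduced_Lz p Θ
  refine PerfectRing.ofSurjective (Lz Θ) p ?_
  intro x
  obtain ⟨⟨a, s⟩, h⟩ := IsLocalization.surj (Submonoid.powers Θ) x
  obtain ⟨n, hn⟩ := s.2
  have hu : IsUnit (algebraMap C (Lz Θ) Θ) := IsLocalization.Away.algebraMap_isUnit Θ
  obtain ⟨v, hv⟩ := hu.exists_right_inv
  have h' : x * algebraMap C (Lz Θ) Θ ^ n = algebraMap C (Lz Θ) a := by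
    rw [← map_pow]
    rw [← hn] at h
    exact h
  obtain ⟨q, hq⟩ : ∃ q, p = q + 1 := ⟨p - 1, by have := hp.out.pos; omega⟩
  have hr : ∀ b : C, rt p 1 b ^ p = b := fun b => by
    have := rt_pow p 1 b
    rwa [pow_one] at this
  refine ⟨algebraMap C (Lz Θ) (rt p 1 (a * Θ ^ (q * n))) * v ^ n, ?_⟩
  rw [frobenius_def, mul_pow, ← map_pow, hr, map_mul, ← h', map_pow]
  have h3 : algebraMap C (Lz Θ) Θ ^ n * algebraMap C (Lz Θ) Θ ^ (q * n) * (v ^ n) ^ p = 1 := by
    have h4 : algebraMap C (Lz Θ) Θ ^ n * algebraMap C (Lz Θ) Θ ^ (q * n) =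
        (algebraMap C (Lz Θ) Θ ^ n) ^ p := by
      rw [← pow_add, ← pow_mul, hq]
      congr 1
      ring
    rw [h4, ← mul_pow, ← mul_pow, hv, one_pow, one_pow]
  calc x * algebraMap C (Lz Θ) Θ ^ n * algebraMap C (Lz Θ) Θ ^ (q * n) * (v ^ n) ^ p
      = x * (algebraMap C (Lz Θ) Θ ^ n * algebraMap C (Lz Θ) Θ ^ (q * n) * (v ^ n) ^ p) := by ring
    _ = x := by rw [h3, mul_one]

/-- the ring `C^nat` with its properties (N0), (N1), (N2). -/
structure NatExt (p : ℕ) [hp : Fact p.Prime] (C : Type u) [CommRing C] [CharP C p]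
    [PerfectRing C p] (t Θ : C) (c : ℕ) where
  N : Type u
  [commRing : CommRing N]
  [charP : CharP N p]
  [perfect : PerfectRing N p]
  [algebra : Algebra C N]
  w : N
  hw : algebraMap C N Θ * w = algebraMap C N t ^ c
  reg : algebraMap C N t ∈ nonZeroDivisors N
  regΘ : algebraMap C N Θ ∈ nonZeroDivisors N
  ker : ∀ a : C, algebraMap C N a = 0 → ∀ f, rt p f Θ * a = 0
  n1 : ∀ (f : ℕ) (x : N), ∃ (a : C) (y : N),
    algebraMap C N (rt p f Θ) * x = algebraMap C N a + algebraMap C N (rt p f t) ^ c * y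
  n2 : ∀ f ν : ℕ, ν * p ^ f ≤ c → ∀ (x : C) (y : N),
    algebraMap C N x = algebraMap C N t ^ ν * y → ∃ x' : C, rt p f Θ ^ 3 * x = t ^ ν * x'

attribute [instance] NatExt.commRing NatExt.charP NatExt.perfect NatExt.algebra

/-- **block NAT-A.** -/
theorem nonempty_natExt {t Θ : C} (ht : t ∈ nonZeroDivisors C) (hΘ : Θ ≠ 0) (c : ℕ) :
    Nonempty (NatExt p C t Θ c) := by
  haveI := isReduced_of_perfect p C
  haveI := nontrivial_Lz p hΘ
  haveI := charP_Lz p hΘ
  haveI := perfect_Lz p hΘ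
  haveI := isReduced_Lz p Θ
  have hu : IsUnit (algebraMap C (Lz Θ) Θ) := IsLocalization.Away.algebraMap_isUnit Θ
  obtain ⟨v, hv⟩ := hu.exists_right_inv
  set w : Lz Θ := algebraMap C (Lz Θ) (t ^ c) * v with hw
  have hΘw : algebraMap C (Lz Θ) Θ * w = algebraMap C (Lz Θ) (t ^ c) := by
    rw [hw]
    linear_combination algebraMap C (Lz Θ) (t ^ c) * hv
  have htD : algebraMap C (Lz Θ) t ∈ nonZeroDivisors (Lz Θ) :=
    IsLocalization.map_nonZeroDivisors_le (Submonoid.powers Θ) (Lz Θ) ⟨t, ht, rfl⟩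
  have hsub : ∀ {a : C}, algebraMap C (Lz Θ) a ∈ nonZeroDivisors (Lz Θ) →
      algebraMap C (Nt p C w) a ∈ nonZeroDivisors (Nt p C w) := by
    intro a ha
    rw [mem_nonZeroDivisors_iff_right] at ha ⊢
    intro x hx
    apply Subtype.ext
    apply ha
    exact congrArg Subtype.val hx
  haveI hc : CharP (Nt p C w) p := by
    haveI : Nontrivial (Nt p C w) := inferInstance
    rw [CharP.charP_iff_prime_eq_zero hp.out]
    rw [← map_natCast (algebraMap C (Nt p C w)), CharP.cast_eq_zero, map_zero]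
  haveI : IsReduced (Nt p C w) :=
    isReduced_of_injective (Nt p C w).val Subtype.val_injective
  haveI hperf : PerfectRing (Nt p C w) p := by
    refine PerfectRing.ofSurjective (Nt p C w) p ?_
    rintro ⟨x, hx⟩
    obtain ⟨y, hy, rfl⟩ := exists_root_Nt p w hx
    exact ⟨⟨y, hy⟩, Subtype.ext rfl⟩
  exact ⟨{
    N := Nt p C w
    w := ⟨w, by
      have := rt_mem_Nt (C := C) p w 0
      have h0 : rt p 0 w = w := by
        have := rt_pow p 0 w
        rwa [pow_zero, pow_one] at this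
      rwa [h0] at this⟩
    hw := by
      apply Subtype.ext
      show algebraMap C (Lz Θ) Θ * w = _
      rw [hΘw, map_pow]
      rfl
    reg := hsub htD
    regΘ := hsub hu.mem_nonZeroDivisors
    ker := fun a ha f => ker_Lz p Θ a (congrArg Subtype.val ha) f
    n1 := fun f x => by
      obtain ⟨a, y, hy, h⟩ := nat1 p w t Θ c hΘw f x.2
      refine ⟨a, ⟨y, hy⟩, Subtype.ext ?_⟩
      rw [rt_pow', map_pow] at h
      exact h
    n2 := fun f ν hν x y h => by
      refine nat2 p w t Θ c hΘw (fun a ha f => ker_Lz p Θ a ha f) f ν hν x y.2 ?_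
      exact congrArg Subtype.val h }⟩

end loc

section maps

variable {p : ℕ} [hp : Fact p.Prime] {C : Type u} [CommRing C] [CharP C p] [PerfectRing C p]
  {t Θ : C} {c : ℕ}

/-- (N1) in the form of `Nat/ON.lean`. -/
theorem NatExt.n1' (E : NatExt p C t Θ c) (f K : ℕ) (hK : K * p ^ f ≤ c) (y : E.N) :
    ∃ (x : C) (z : E.N), algebraMap C E.N (rt p f Θ) * y =
      algebraMap C E.N x + algebraMap C E.N t ^ K * z := by
  obtain ⟨τ', hτ'⟩ : ∃ τ', rt p f t ^ c = t ^ K * τ' := by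
    obtain ⟨j, hj⟩ := Nat.exists_eq_add_of_le hK
    refine ⟨rt p f t ^ j, ?_⟩
    rw [hj, pow_add, mul_comm K, pow_mul, rt_pow]
  obtain ⟨a, y', h⟩ := E.n1 f y
  refine ⟨a, algebraMap C E.N τ' * y', ?_⟩
  rw [h, ← map_pow, hτ', map_mul, map_pow]
  ring

/-- `t^c` is a multiple of `Θ` in `C^nat`. -/
theorem NatExt.dvd (E : NatExt p C t Θ c) : algebraMap C E.N Θ ∣ algebraMap C E.N t ^ c :=
  ⟨E.w, E.hw.symm⟩

/-- (N7): the map `C^nat/t^ν → C/t^ν` which is inverse to the inclusion up to `θ^4`. -/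
theorem NatExt.exists_back (E : NatExt p C t Θ c) (f ν : ℕ) (hν : ν * p ^ f ≤ c) :
    ∃ g : (E.N ⧸ Ideal.span {algebraMap C E.N t ^ ν}) →ₗ[C] (C ⧸ Ideal.span {t ^ ν}),
      (∀ x : C, g (Ideal.Quotient.mk _ (algebraMap C E.N x)) =
        Ideal.Quotient.mk _ (rt p f Θ ^ 4 * x)) ∧
      ∀ (y : E.N) (a : C), Ideal.Quotient.mk _ a = g (Ideal.Quotient.mk _ y) →
        Ideal.Quotient.mk (Ideal.span {algebraMap C E.N t ^ ν}) (algebraMap C E.N a) =
          Ideal.Quotient.mk _ (algebraMap C E.N (rt p f Θ) ^ 4 * y) := by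
  set θ := rt p f Θ with hθ
  set I : Ideal E.N := Ideal.span {algebraMap C E.N t ^ ν} with hI
  set J : Ideal C := Ideal.span {t ^ ν} with hJ
  obtain ⟨τ', hτ'⟩ : ∃ τ', rt p f t ^ c = t ^ ν * τ' := by
    obtain ⟨j, hj⟩ := Nat.exists_eq_add_of_le hν
    refine ⟨rt p f t ^ j, ?_⟩
    rw [hj, pow_add, mul_comm ν, pow_mul, rt_pow]
  have hex : ∀ y : E.N, ∃ a : C, ∃ y' : E.N,
      algebraMap C E.N θ * y = algebraMap C E.N a + algebraMap C E.N t ^ ν * y' := by
    intro y
    obtain ⟨a, y', h⟩ := E.n1 f y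
    refine ⟨a, algebraMap C E.N τ' * y', ?_⟩
    rw [h, ← map_pow, hτ', map_mul, map_pow]
    ring
  choose A Y hAY using hex
  -- independence of the choice
  have hind : ∀ (y : E.N) (a : C) (y' : E.N),
      algebraMap C E.N θ * y = algebraMap C E.N a + algebraMap C E.N t ^ ν * y' →
      Ideal.Quotient.mk J (θ ^ 3 * A y) = Ideal.Quotient.mk J (θ ^ 3 * a) := by
    intro y a y' h
    obtain ⟨x', hx'⟩ := E.n2 f ν hν (A y - a) (y' - Y y) (by
      rw [map_sub]
      linear_combination h - hAY y)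
    rw [Ideal.Quotient.eq, ← mul_sub, hx']
    exact Ideal.mul_mem_right _ _ (Ideal.mem_span_singleton_self _)
  let G : E.N →ₗ[C] (C ⧸ J) :=
    { toFun := fun y => Ideal.Quotient.mk J (θ ^ 3 * A y)
      map_add' := fun y z => by
        rw [hind (y + z) (A y + A z) (Y y + Y z) (by
          rw [map_add]
          linear_combination hAY y + hAY z), mul_add, map_add]
      map_smul' := fun r y => by
        rw [hind (r • y) (r * A y) (algebraMap C E.N r * Y y) (by
          rw [Algebra.smul_def, map_mul]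
          linear_combination algebraMap C E.N r * hAY y), RingHom.id_apply, Algebra.smul_def,
          Ideal.Quotient.algebraMap_eq, ← map_mul]
        congr 1
        ring }
  have hG : ∀ y, G y = Ideal.Quotient.mk J (θ ^ 3 * A y) := fun y => rfl
  have hker : I.restrictScalars C ≤ LinearMap.ker G := by
    intro y hy
    rw [Submodule.restrictScalars_mem, hI, Ideal.mem_span_singleton'] at hy
    obtain ⟨z, rfl⟩ := hy
    rw [LinearMap.mem_ker, hG, hind _ 0 (algebraMap C E.N θ * z) (by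
      rw [map_zero]
      ring), mul_zero, map_zero]
  let e := Submodule.Quotient.restrictScalarsEquiv C I
  refine ⟨((I.restrictScalars C).liftQ G hker).comp e.symm.toLinearMap, fun x => ?_,
    fun y a ha => ?_⟩
  · show (I.restrictScalars C).liftQ G hker (e.symm (Submodule.Quotient.mk (algebraMap C E.N x)))
      = _
    have h1 : e.symm (Submodule.Quotient.mk (algebraMap C E.N x)) =
        Submodule.Quotient.mk (algebraMap C E.N x) := rfl
    rw [h1, Submodule.liftQ_apply, hG, hind _ (θ * x) 0 (by rw [map_mul]; ring)]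
    congr 1
    ring
  · have h1 : Ideal.Quotient.mk J a = Ideal.Quotient.mk J (θ ^ 3 * A y) := ha
    rw [Ideal.Quotient.eq, hJ, Ideal.mem_span_singleton'] at h1
    obtain ⟨b, hb⟩ := h1
    have h2 : a = θ ^ 3 * A y + b * t ^ ν := by rw [hb]; ring
    rw [Ideal.Quotient.eq, hI, Ideal.mem_span_singleton']
    refine ⟨algebraMap C E.N b - algebraMap C E.N θ ^ 3 * Y y, ?_⟩
    rw [h2, map_add, map_mul, map_mul, map_pow, map_pow]
    linear_combination (algebraMap C E.N θ ^ 3) * hAY y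

end maps

end Vale.Agent.P177.CN
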