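import Vale.Agent.P177.Nat.NatT
import Vale.Agent.P177.PI.Pack

/-!
# P177, block NAT-A: which ideals satisfy `SP`; the case `f = 0`
-/

set_option linter.all false

namespace Vale.Agent.P177.CN

open Polynomial Vale.Agent.P177.PI Vale.Agent.P177.Perf

universe u v w

section

variable {p : ℕ} [hp : Fact p.Prime] {C : Type u} [CommRing C] [CharP C p] [PerfectRing C p]

theorem perfHull_pow_le (P : Ideal C) (n : ℕ) : perfHull p P ^ n ≤ perfHull p (P ^ n) := by
  induction n with
  | zero => rw [pow_zero, pow_zero, Ideal.one_eq_top, perfHull_top]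
  | succ n ih =>
    rw [pow_succ, pow_succ]
    exact (Ideal.mul_mono ih le_rfl).trans perfHull_mul_le

/-- perfect hulls satisfy `SP`. -/
theorem SP_perfHull (P : Ideal C) : SP p (perfHull p P) := by
  intro m b hb
  rw [← pow_mem_perfHull_iff (e := m), rt_pow]
  exact perfHull_pow_le P _ hb

theorem rt_zero (a : C) : rt p 0 a = a := by
  have := rt_pow p 0 a
  rwa [pow_zero, pow_one] at this

/-- it is enough to test `p`-th powers. -/
theorem SP_of_one {J : Ideal C} (hJ : ∀ x ∈ J ^ p, rt p 1 x ∈ J) : SP p J := by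
  obtain ⟨ρ, hρ⟩ : ∃ ρ : C →+* C, ∀ x, ρ x = rt p 1 x := by
    refine ⟨((_root_.frobeniusEquiv C p).symm : C →+* C), fun x => ?_⟩
    apply pow_pow_inj p 1
    rw [rt_pow, pow_one]
    show ((_root_.frobeniusEquiv C p).symm x) ^ p = x
    rw [← frobenius_def, ← _root_.frobeniusEquiv_apply]
    exact RingEquiv.apply_symm_apply _ _
  have h1 : ∀ k b, b ∈ J ^ (p * k) → rt p 1 b ∈ J ^ k := by
    intro k b hb
    have h2 := Ideal.mem_map_of_mem ρ hb
    rw [pow_mul, Ideal.map_pow, hρ] at h2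
    refine Ideal.pow_right_mono ?_ k h2
    rw [Ideal.map_le_iff_le_comap]
    intro x hx
    rw [Ideal.mem_comap, hρ]
    exact hJ x hx
  intro m
  induction m with
  | zero =>
    intro b hb
    rw [pow_zero, pow_one] at hb
    rwa [rt_zero]
  | succ m ih =>
    intro b hb
    rw [pow_succ'] at hb
    have h3 := ih _ (h1 _ _ hb)
    rwa [rt_rt] at h3

theorem SP.one {J : Ideal C} (hJ : SP p J) {x : C} (hx : x ∈ J ^ p) : rt p 1 x ∈ J :=
  hJ 1 x (by rwa [pow_one])

/-- extension along any homomorphism of perfect rings. -/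
theorem SP.map {C' : Type v} [CommRing C'] [CharP C' p] [PerfectRing C' p] (f : C →+* C')
    {J : Ideal C} (hJ : SP p J) : SP p (J.map f) := by
  intro m b hb
  rw [← Ideal.map_pow] at hb
  refine Submodule.span_induction (p := fun b _ => rt p m b ∈ J.map f) ?_ ?_ ?_ ?_ hb
  · rintro _ ⟨a, ha, rfl⟩
    beta_reduce
    have : rt p m (f a) = f (rt p m a) := by
      apply pow_pow_inj p m
      rw [rt_pow, ← map_pow, rt_pow]
    rw [this]
    exact Ideal.mem_map_of_mem _ (hJ m a ha)
  · have : rt p m (0 : C') = 0 := by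
      apply pow_pow_inj p m
      rw [rt_pow, zero_pow (pow_ne_zero _ hp.out.ne_zero)]
    rw [this]
    exact zero_mem _
  · intro x y _ _ hx hy
    have : rt p m (x + y) = rt p m x + rt p m y := by
      apply pow_pow_inj p m
      rw [rt_pow, add_pow_char_pow, rt_pow, rt_pow]
    rw [this]
    exact add_mem hx hy
  · intro r x _ hx
    rw [smul_eq_mul, rt_mul]
    exact Ideal.mul_mem_left _ _ hx

variable {T Θ : C} (E : NatE p C T Θ)

/-- (N1J) for `f = 0`. -/
theorem NatE.n1J0 (J : Ideal C) {x : E.N} (hx : x ∈ J.map (algebraMap C E.N)) :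
    ∃ a ∈ J, ∃ y ∈ J.map (algebraMap C E.N),
      algebraMap C E.N Θ * x = algebraMap C E.N a + algebraMap C E.N T * y := by
  have := E.n1J J 0 hx
  rwa [rt_zero, rt_zero] at this

/-- (N2J) for `f = 0`. -/
theorem NatE.n2J0 {J : Ideal C} (hJ : SP p J) (s : C) (hs : s ∣ T) {x : C}
    (hx : x ∈ J) {y : E.N} (hy : y ∈ J.map (algebraMap C E.N))
    (hxy : algebraMap C E.N x = algebraMap C E.N s * y) :
    ∃ x' ∈ J, Θ ^ 3 * x = s * x' := by
  have := E.n2J hJ 0 s (by rwa [rt_zero]) hx hy hxy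
  rwa [rt_zero] at this

/-- `ker (C → C^nat)` is killed by `Θ`. -/
theorem NatE.ker0 {a : C} (ha : algebraMap C E.N a = 0) : Θ * a = 0 := by
  have := E.ker a ha 0
  rwa [rt_zero] at this

/-- `T` is a multiple of `Θ` in `C^nat`. -/
theorem NatE.dvd : algebraMap C E.N Θ ∣ algebraMap C E.N T := ⟨E.w, E.hw.symm⟩


end

section

variable {p : ℕ} [hp : Fact p.Prime] {ι : Type v} [Nonempty ι] {C : ι → Type w}
  [∀ e, CommRing (C e)] [∀ e, CharP (C e) p] [∀ e, PerfectRing (C e) p]

attribute [local instance] charP_pi perfectRing_pi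

theorem rt_pi (m : ℕ) (a : ∀ e, C e) (e : ι) : rt p m a e = rt p m (a e) := by
  apply pow_pow_inj p m
  rw [rt_pow, ← Pi.pow_apply, rt_pow]

theorem pow_pi_le (J : ∀ e, Ideal (C e)) (n : ℕ) {b : ∀ e, C e} (hb : b ∈ Ideal.pi J ^ n)
    (e : ι) : b e ∈ J e ^ n := by
  have h1 : (Ideal.pi J).map (Pi.evalRingHom C e) ≤ J e := by
    rw [Ideal.map_le_iff_le_comap]
    intro x hx
    exact hx e
  have h2 := Ideal.mem_map_of_mem (Pi.evalRingHom C e) hb
  rw [Ideal.map_pow] at h2
  exact Ideal.pow_right_mono h1 n h2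

/-- products of ideals with `SP` satisfy `SP`. -/
theorem SP_pi {J : ∀ e, Ideal (C e)} (hJ : ∀ e, SP p (J e)) : SP p (Ideal.pi J) := by
  intro m b hb e
  rw [rt_pi]
  exact hJ e m _ (pow_pi_le J _ hb e)

end

end Vale.Agent.P177.CN
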