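import Vale.Agent.P177.Nat.HMod
import Vale.Agent.P177.Nat.ExactE
import Mathlib.RingTheory.Flat.TorsionFree

/-!
# The pieces of the flag as honest modules (P177, final form of NAT-G)
-/

namespace Vale.Agent.P177.NatG

open Vale.Agent.P177.PI Vale.Agent.P177.NatC WittVector TensorProduct Function
  Vale.Agent.P202.Mix

set_option linter.all false

universe u

section flat

variable (p : ℕ) [hp : Fact p.Prime] (C : Type u) [CommRing C] [CharP C p] [PerfectRing C p]

theorem eq_zero_of_int_smul {n : ℤ} (hn : n ≠ 0) {x : WittVector p C} (h : n • x = 0) : x = 0 := by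
  have hpow : ∀ (k : ℕ) (y : WittVector p C), (p : WittVector p C) ^ k * y = 0 → y = 0 := by
    intro k
    induction k with
    | zero => intro y hy; simpa using hy
    | succ k ih =>
      intro y hy
      apply ih
      apply WittVector.eq_zero_of_p_mul_eq_zero
      rw [← hy]; ring
  obtain ⟨k, m, hm, hnm⟩ : ∃ (k : ℕ) (m : ℤ), ¬ (p : ℤ) ∣ m ∧ n = (p : ℤ) ^ k * m := by
    have hfin : FiniteMultiplicity (p : ℤ) n := by
      apply Int.finiteMultiplicity_iff.2
      exact ⟨by rw [Int.natAbs_natCast]; exact hp.out.ne_one, hn⟩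
    obtain ⟨m, h1, h2⟩ := hfin.exists_eq_pow_mul_and_not_dvd
    exact ⟨_, m, h2, h1⟩
  have hcop : IsCoprime (p : ℤ) m := by
    rw [Int.isCoprime_iff_gcd_eq_one, Int.gcd_comm]
    by_contra hg
    apply hm
    have h1 : Int.gcd m p ∣ p := by
      have := Int.gcd_dvd_right m (p : ℤ)
      exact_mod_cast this
    rcases (Nat.dvd_prime hp.out).1 h1 with h2 | h2
    · exact absurd h2 hg
    · have h3 := Int.gcd_dvd_left m (p : ℤ)
      rwa [h2] at h3
  obtain ⟨a, b, hab⟩ := hcop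
  have h1 : (m : WittVector p C) * x = 0 := by
    apply hpow k
    rw [← h, hnm, zsmul_eq_mul]
    push_cast
    ring
  have h2 : x = (p : WittVector p C) * ((a : WittVector p C) * x) := by
    have h3 : ((a * p + b * m : ℤ) : WittVector p C) = 1 := by rw [hab, Int.cast_one]
    push_cast at h3
    linear_combination (-x) * h3 + (b : WittVector p C) * h1
  have key : ∀ j : ℕ, (p : WittVector p C) ^ j ∣ x := by
    intro j
    induction j with
    | zero => simp
    | succ j ih =>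
      obtain ⟨y, hy⟩ := ih
      refine ⟨(a : WittVector p C) * y, ?_⟩
      rw [h2]
      nth_rewrite 1 [hy]
      ring
  ext j
  have h4 := key (j + 1)
  rw [← sub_zero x] at h4
  exact P202.Mix.coeff_eq_of_dvd_sub h4 (Nat.lt_succ_self j)

/-- `W(C)` is flat over `ℤ`. -/
theorem flat_int_witt : Module.Flat ℤ (WittVector p C) := by
  rw [Module.Flat.flat_iff_torsion_eq_bot_of_isBezout, eq_bot_iff]
  intro x hx
  rw [Submodule.mem_torsion_iff] at hx
  obtain ⟨⟨n, hn⟩, h⟩ := hx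
  exact eq_zero_of_int_smul p C (nonZeroDivisors.ne_zero hn) h

theorem flat_tensor_witt (R : Type u) [CommRing R] : Module.Flat R (R ⊗[ℤ] WittVector p C) := by
  have := flat_int_witt p C
  infer_instance

end flat

section glueH

variable (p : ℕ) [hp : Fact p.Prime] {C C' D : Type u} [CommRing D]
  [CommRing C] [CharP C p] [PerfectRing C p] [CommRing C'] [CharP C' p] [PerfectRing C' p]
  (f : C →+* C')

/-- `exists_glue` for `HMod`. -/
theorem exists_glueH {J : Ideal C} {J' : Ideal C'} (hJ : IsPerf p J) (hJ' : IsPerf p J')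
    (hf : ∀ x ∈ J, f x ∈ J') (t η : C) (ht : f t ∈ nonZeroDivisors C')
    (hS : ∀ y ∈ J', ∃ x ∈ J, ∃ z ∈ J', f η * y = f x + f t * z)
    (hI : ∀ x ∈ J, (∃ z ∈ J', f x = f t * z) → ∃ y ∈ J, η ^ 3 * x = t * y)
    (M1 N1 : Ideal (WittVector p C)) (N : ℕ) (hM1 : ∀ x, x ∈ M1 ↔ x ∈ WI p J)
    (hN1 : ∀ x, x ∈ N1 ↔ ∃ u ∈ WI p J, ∃ v ∈ WI p J,
      x = ((p : WittVector p C) - teichmuller p t) * u + (p : WittVector p C) ^ N * v)
    (E' : WittVector p C')
    (hE1 : ∃ a b : WittVector p C', (p : WittVector p C') - teichmuller p (f t) =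
      a * E' + b * (p : WittVector p C') ^ N)
    (hE2 : ∃ a b : WittVector p C', E' =
      a * ((p : WittVector p C') - teichmuller p (f t)) + b * (p : WittVector p C') ^ N)
    (ρ : D →+* WittVector p C' ⧸ Ideal.span {E'})
    (α : D) (c m : ℕ) (u : WittVector p C') (hu : IsUnit u)
    (hα : ρ α = Ideal.Quotient.mk _ ((p : WittVector p C') ^ c * u)) (hN : c * (m + 1) = N)
    (K : Submodule D (HMod p J' E' ρ)) (hK : ∀ h, h ∈ K ↔ ∃ h', h = α ^ (m + 1) • h')
    (η' : D) (hη' : ρ η' = Ideal.Quotient.mk _ (teichmuller p (f η))) :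
    ∃ π : (M1 ⧸ (Submodule.comap M1.subtype N1)) →+ (HMod p J' E' ρ ⧸ K),
      (∀ y, ∃ x, π x = η' ^ (3 * N) • y) ∧
      (∀ x, π x = 0 → teichmuller p η ^ (3 * N) • x = 0) ∧
      (∀ (d : D) (w : WittVector p C) (z : WittVector p C'),
        ρ d = Ideal.Quotient.mk _ (WittVector.map f w + (p : WittVector p C') ^ N * z) →
        ∀ x, π (w • x) = d • π x) := by
  let _ : Module D (HM p J' E') := inferInstanceAs (Module D (HMod p J' E' ρ))
  exact exists_glue (D := D) p f hJ hJ' hf t η ht hS hI M1 N1 N hM1 hN1 E' hE1 hE2 ρ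
    (fun d w h x => hmod_smul (E' := E') (ρ := ρ) d w h x) α c m u hu hα hN K hK η' hη'

/-- torsion of the honest module. -/
theorem smul_eq_zero_H {J' : Ideal C'} (hJ' : IsPerf p J') {t' : C'} (ht : t' ∈ nonZeroDivisors C')
    {E' z w : WittVector p C'} {M : ℕ} (hz : IsUnit z) (hM : 1 ≤ M)
    (hE' : E' = ((p : WittVector p C') - teichmuller p t') * z + (p : WittVector p C') ^ M * w)
    (ρ : D →+* WittVector p C' ⧸ Ideal.span {E'}) (α : D) (c : ℕ) (u : WittVector p C')
    (hu : IsUnit u) (hα : ρ α = Ideal.Quotient.mk _ ((p : WittVector p C') ^ c * u))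
    (h : HMod p J' E' ρ) (hh : α • h = 0) : h = 0 := by
  obtain ⟨x, rfl⟩ := hcl_surj h
  rw [hmod_smul _ _ hα, ← hcl_smul, hcl_eq_zero] at hh
  obtain ⟨y, hy, he⟩ := hh
  rw [hcl_eq_zero]
  have h1 : (p : WittVector p C') ^ c * (u * x) = E' * y := by
    rw [← he]
    change _ = (p : WittVector p C') ^ c * u * x.1
    ring
  have key : ∀ (k : ℕ) (v y : WittVector p C'), y ∈ WI p J' →
      (p : WittVector p C') ^ k * v = E' * y → ∃ y' ∈ WI p J', v = E' * y' := by
    intro k
    induction k with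
    | zero => intro v y hy h; exact ⟨y, hy, by simpa using h⟩
    | succ k ih =>
      intro v y hy h
      obtain ⟨a', ha', -, h2⟩ := exists_of_p_mul_E p hJ' ht hz hM hE'
        (x := (p : WittVector p C') ^ k * v) hy (by rw [← h]; ring)
      exact ih v a' ha' h2
  obtain ⟨y', hy', h2⟩ := key c _ y hy h1
  obtain ⟨ui, hui⟩ := hu.exists_right_inv
  refine ⟨ui * y', Ideal.mul_mem_left _ _ hy', ?_⟩
  linear_combination ui * h2 - (x : WittVector p C') * hui

end glueH

section piece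

variable (p : ℕ) [hp : Fact p.Prime] {S R C C' : Type u} [CommRing S] [CommRing R]
  [CommRing C] [CharP C p] [PerfectRing C p] [CommRing C'] [CharP C' p] [PerfectRing C' p]
  (f : C →+* C') (Φ : S →+* R) (hΦ : Surjective Φ) (E : S) (hE : RingHom.ker Φ = Ideal.span {E})
  (ψ : S →+* WittVector p C)

/-- the action of `R ⊗ W(C)` on the honest modules. -/
noncomputable abbrev rhoF : R ⊗[ℤ] WittVector p C →+*
    WittVector p C' ⧸ Ideal.span {((WittVector.map f).comp ψ) E} :=
  rhoD Φ hΦ E hE ((WittVector.map f).comp ψ) (WittVector.map f)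

/-- the honest module of the ideal `J` of `C`. -/
abbrev HJ (J : Ideal C) : Type u :=
  HMod p (J.map f) (((WittVector.map f).comp ψ) E) (rhoF p f Φ hΦ E hE ψ)

/-- the submodule `α ^ (m + 1) H`. -/
noncomputable abbrev KJ (J : Ideal C) (α : R) (m : ℕ) :
    Submodule (R ⊗[ℤ] WittVector p C) (HJ p f Φ hΦ E hE ψ J) :=
  LinearMap.range (LinearMap.lsmul (R ⊗[ℤ] WittVector p C) (HJ p f Φ hΦ E hE ψ J)
    ((α ⊗ₜ 1 : R ⊗[ℤ] WittVector p C) ^ (m + 1)))

variable {p}

theorem one_add_p_mul_isUnit (y : WittVector p C') : IsUnit (1 + (p : WittVector p C') * y) := by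
  have h4 : Ideal.span {(p : WittVector p C')} ≤ Ideal.jacobson ⊥ :=
    IsAdicComplete.le_jacobson_bot _
  have h5 := Ideal.mem_jacobson_bot.1 (h4 (Ideal.mem_span_singleton_self _)) y
  rwa [add_comm] at h5

/-- **The pieces of the flag are the truncations of the honest modules, up to `η`.** -/
theorem exists_piece {J : Ideal C} (hJ : IsPerf p J) (hJ' : IsPerf p (J.map f)) (t η : C)
    (ht : f t ∈ nonZeroDivisors C')
    (hS : ∀ y ∈ J.map f, ∃ x ∈ J, ∃ z ∈ J.map f, f η * y = f x + f t * z)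
    (hI : ∀ x ∈ J, (∃ z ∈ J.map f, f x = f t * z) → ∃ y ∈ J, η ^ 3 * x = t * y)
    (M1 N1 : Ideal (WittVector p C)) (N : ℕ) (hM1 : ∀ x, x ∈ M1 ↔ x ∈ WI p J)
    (hN1 : ∀ x, x ∈ N1 ↔ ∃ u ∈ WI p J, ∃ v ∈ WI p J,
      x = ((p : WittVector p C) - teichmuller p t) * u + (p : WittVector p C) ^ N * v)
    {z w : WittVector p C'} {M : ℕ} (hz : IsUnit z) (hM : 1 ≤ M) (hNM : N ≤ M)
    (hE' : WittVector.map f (ψ E) = ((p : WittVector p C') - teichmuller p (f t)) * z +
      (p : WittVector p C') ^ M * w)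
    (α : R) (c m : ℕ) (hN : c * (m + 1) = N)
    (hα : ∃ y, rhoR Φ hΦ E hE ((WittVector.map f).comp ψ) α =
      Ideal.Quotient.mk _ ((p : WittVector p C') ^ c + (p : WittVector p C') ^ (c + 1) * y)) :
    (∀ h : HJ p f Φ hΦ E hE ψ J, (α ⊗ₜ 1 : R ⊗[ℤ] WittVector p C) • h = 0 → h = 0) ∧
    ∃ π : (M1 ⧸ (Submodule.comap M1.subtype N1)) →+
        (HJ p f Φ hΦ E hE ψ J ⧸ KJ p f Φ hΦ E hE ψ J α m),
      (∀ y, ∃ x, π x = ((1 : R) ⊗ₜ[ℤ] teichmuller p η) ^ (3 * N) • y) ∧
      (∀ x, π x = 0 → teichmuller p η ^ (3 * N) • x = 0) ∧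
      (∀ (a : WittVector p C) x, π (a • x) = ((1 : R) ⊗ₜ[ℤ] a) • π x) ∧
      (∀ (s : S) (a : WittVector p C), (∃ x y : WittVector p C', WittVector.map f (ψ s) -
        WittVector.map f a = WittVector.map f (ψ E) * x + (p : WittVector p C') ^ N * y) →
        ∀ x, π (a • x) = ((Φ s) ⊗ₜ[ℤ] (1 : WittVector p C)) • π x) := by
  obtain ⟨y0, hy0⟩ := hα
  have hE'' : ((WittVector.map f).comp ψ) E = ((p : WittVector p C') - teichmuller p (f t)) * z +
      (p : WittVector p C') ^ M * w := hE'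
  have hρα : rhoF p f Φ hΦ E hE ψ (α ⊗ₜ 1) = Ideal.Quotient.mk _
      ((p : WittVector p C') ^ c * (1 + (p : WittVector p C') * y0)) := by
    have e1 := rhoD_tmul Φ hΦ E hE ((WittVector.map f).comp ψ) (WittVector.map f) α 1
    rw [hy0, map_one (WittVector.map f), map_one (Ideal.Quotient.mk _), mul_one] at e1
    refine e1.trans ?_
    have e2 : (p : WittVector p C') ^ c + (p : WittVector p C') ^ (c + 1) * y0 =
        (p : WittVector p C') ^ c * (1 + (p : WittVector p C') * y0) := by ring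
    rw [e2]
  have hu := one_add_p_mul_isUnit y0
  constructor
  · intro h hh
    exact smul_eq_zero_H p hJ' ht hz hM hE'' _ _ c _ hu hρα h hh
  · obtain ⟨zi, hzi⟩ := hz.exists_right_inv
    have hpM : (p : WittVector p C') ^ M = (p : WittVector p C') ^ (M - N) *
        (p : WittVector p C') ^ N := by rw [← pow_add, Nat.sub_add_cancel hNM]
    obtain ⟨π, h1, h2, h3⟩ := exists_glueH (D := R ⊗[ℤ] WittVector p C) p f hJ hJ'
      (fun x hx => Ideal.mem_map_of_mem f hx) t η ht hS hI M1 N1 N hM1 hN1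
      (((WittVector.map f).comp ψ) E)
      ⟨zi, -(zi * w * (p : WittVector p C') ^ (M - N)), by
        rw [hE'', hpM]
        linear_combination (-((p : WittVector p C') - teichmuller p (f t))) * hzi⟩
      ⟨z, w * (p : WittVector p C') ^ (M - N), by rw [hE'', hpM]; ring⟩
      (rhoF p f Φ hΦ E hE ψ) (α ⊗ₜ 1) c m (1 + (p : WittVector p C') * y0) hu hρα hN
      (KJ p f Φ hΦ E hE ψ J α m)
      (fun h => ⟨fun ⟨h', hh'⟩ => ⟨h', hh'.symm⟩, fun ⟨h', hh'⟩ => ⟨h', hh'.symm⟩⟩)
      (1 ⊗ₜ teichmuller p η) (by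
        rw [rhoF, rhoD_right, map_teichmuller])
    refine ⟨π, h1, h2, fun a x => h3 _ a 0 ?_ x, fun s a ⟨x', y', hxy⟩ x => h3 _ a y' ?_ x⟩
    · rw [rhoF, rhoD_right, mul_zero, add_zero]
    · rw [rhoF, rhoD_left, Ideal.Quotient.eq, Ideal.mem_span_singleton']
      refine ⟨x', ?_⟩
      simp only [RingHom.comp_apply]
      linear_combination -hxy

end piece

end Vale.Agent.P177.NatG
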